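import Mathlib

set_option autoImplicit false

namespace Crest.Agent.LF

/-- formal inverse of a signed letter -/
def sinv {α : Type} (d : α × Bool) : α × Bool := (d.1, !d.2)

@[simp] lemma sinv_sinv {α : Type} (d : α × Bool) : sinv (sinv d) = d := by
  simp [sinv]

lemma sinv_inj {α : Type} {d e : α × Bool} (h : sinv d = sinv e) : d = e := by
  have := congrArg sinv h
  simpa using this

abbrev Dart : Type := Bool × Bool

/-- there is a reduced walk of `m` steps inside `R` starting with the dart `d` -/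
def Walk {V : Type} (mv : V → Dart → V) (R : Set V) : ℕ → V → Dart → Prop
  | 0, _, _ => True
  | m + 1, v, d => mv v d ∈ R ∧ ∃ d', d' ≠ sinv d ∧ Walk mv R m (mv v d) d'

lemma Walk.mono {V : Type} {mv : V → Dart → V} {R : Set V} :
    ∀ (m k : ℕ) (v : V) (d : Dart), Walk mv R (m + k) v d → Walk mv R m v d := by
  intro m
  induction m with
  | zero => intro k v d _; trivial
  | succ m ih =>
    intro k v d h
    rw [Nat.add_right_comm] at h
    obtain ⟨h1, d', h2, h3⟩ := h
    exact ⟨h1, d', h2, ih k _ _ h3⟩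

lemma exists_rank {V : Type} (mv : V → Dart → V) (R : Set V) (Λ : ℕ)
    (h : ∀ v ∈ R, ∀ d, ¬ Walk mv R Λ v d) :
    ∃ rk : V → Dart → ℕ, ∀ v d d', v ∈ R → mv v d ∈ R → d' ≠ sinv d →
      rk (mv v d) d' < rk v d := by
  classical
  refine ⟨fun v d => Nat.findGreatest (fun m => Walk mv R m v d) Λ, ?_⟩
  intro v d d' hv hvd hd
  set m := Nat.findGreatest (fun m => Walk mv R m (mv v d) d') Λ with hm
  have h1 : Walk mv R m (mv v d) d' :=
    Nat.findGreatest_spec (P := fun m => Walk mv R m (mv v d) d') (Nat.zero_le Λ) trivial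
  have h2 : Walk mv R (m + 1) v d := ⟨hvd, d', hd, h1⟩
  have h3 : m + 1 ≤ Λ := by
    by_contra hc
    push Not at hc
    obtain ⟨k, hk⟩ : ∃ k, m + 1 = Λ + k := ⟨m + 1 - Λ, by omega⟩
    rw [hk] at h2
    exact h v hv d (Walk.mono _ _ _ _ h2)
  exact Nat.le_findGreatest (P := fun m => Walk mv R m v d) h3 h2

theorem exists_flow {V : Type} (mv : V → Dart → V) (hmv : ∀ v d, mv (mv v d) (sinv d) = v)
    (R : Set V) (Λ : ℕ) (h : ∀ v ∈ R, ∀ d, ¬ Walk mv R Λ v d) :
    ∃ θ : V → Dart → ℝ, (∀ v d, |θ v d| ≤ 1) ∧ (∀ v d, θ (mv v d) (sinv d) = -θ v d) ∧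
      ∀ v ∈ R, ∑ d, θ v d = 1 := by
  classical
  obtain ⟨rk, hrk⟩ := exists_rank mv R Λ h
  -- incoming darts
  let inc : V → Dart → Prop := fun v d => mv v d ∈ R ∧ rk (mv v d) (sinv d) ≤ rk v d
  let out : V → Dart → Prop := fun v d => v ∈ R ∧ ¬ inc v d
  have huniq : ∀ v ∈ R, ∀ d e, inc v d → inc v e → d = e := by
    intro v hv d e hd he
    by_contra hne
    have a1 := hrk (mv v d) (sinv d) e hd.1 (by rw [hmv]; exact hv)
      (by rw [sinv_sinv]; exact fun h => hne h.symm)
    have a2 := hrk (mv v e) (sinv e) d he.1 (by rw [hmv]; exact hv)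
      (by rw [sinv_sinv]; exact hne)
    rw [hmv] at a1 a2
    have := hd.2
    have := he.2
    omega
  have hsend : ∀ v ∈ R, ∀ d, out (mv v d) (sinv d) → inc v d := by
    intro v hv d ho
    refine ⟨ho.1, ?_⟩
    have := ho.2
    simp only [inc, hmv, sinv_sinv, not_and, not_le] at this
    exact (this hv).le
  let od : V → ℕ := fun v => (Finset.univ.filter fun d => out v d).card
  have hod : ∀ v ∈ R, 3 ≤ od v := by
    intro v hv
    have h1 : (Finset.univ.filter fun d => ¬ out v d).card ≤ 1 := by
      rw [Finset.card_le_one]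
      intro d hd e he
      simp only [Finset.mem_filter, Finset.mem_univ, true_and, out, not_and, not_not] at hd he
      exact huniq v hv d e (hd hv) (he hv)
    have h2 := Finset.card_filter_add_card_filter_not (s := (Finset.univ : Finset Dart))
      (fun d => out v d)
    have h3 : (Finset.univ : Finset Dart).card = 4 := by simp
    simp only [od]
    omega
  have hin : ∀ v ∈ R, ∀ f : V → ℝ, (∀ u, 0 ≤ f u) → (∀ u, f u ≤ 1) →
      0 ≤ ∑ d, (if out (mv v d) (sinv d) then f (mv v d) else 0) ∧
      ∑ d, (if out (mv v d) (sinv d) then f (mv v d) else 0) ≤ 1 := by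
    intro v hv f h0 h1
    constructor
    · exact Finset.sum_nonneg fun d _ => by split_ifs; exacts [h0 _, le_rfl]
    · calc ∑ d, (if out (mv v d) (sinv d) then f (mv v d) else 0)
          ≤ ∑ d, (if out (mv v d) (sinv d) then (1 : ℝ) else 0) :=
            Finset.sum_le_sum fun d _ => by split_ifs; exacts [h1 _, le_rfl]
        _ = ((Finset.univ.filter fun d => out (mv v d) (sinv d)).card : ℝ) := by
            rw [Finset.sum_boole]
        _ ≤ 1 := by
            have : (Finset.univ.filter fun d => out (mv v d) (sinv d)).card ≤ 1 := by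
              rw [Finset.card_le_one]
              intro d hd e he
              simp only [Finset.mem_filter, Finset.mem_univ, true_and] at hd he
              exact huniq v hv d e (hsend v hv d hd) (hsend v hv e he)
            exact_mod_cast this
  -- fixed point
  haveI : Fact ((0 : ℝ) ≤ 1) := ⟨zero_le_one⟩
  let G : (V → ℝ) → V → ℝ := fun f v =>
    if v ∈ R then (1 + ∑ d, (if out (mv v d) (sinv d) then f (mv v d) else 0)) / od v else 0
  have hG : ∀ f : V → ℝ, (∀ u, 0 ≤ f u) → (∀ u, f u ≤ 1) → ∀ v, G f v ∈ Set.Icc (0 : ℝ) 1 := by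
    intro f h0 h1 v
    simp only [G]
    split_ifs with hv
    · obtain ⟨a, b⟩ := hin v hv f h0 h1
      have h3 : (3 : ℝ) ≤ od v := by exact_mod_cast hod v hv
      constructor
      · positivity
      · rw [div_le_one (by linarith)]; linarith
    · exact ⟨le_rfl, zero_le_one⟩
  let Ψ : (V → Set.Icc (0 : ℝ) 1) →o (V → Set.Icc (0 : ℝ) 1) :=
    { toFun := fun f v => ⟨G (fun u => (f u : ℝ)) v, hG _ (fun u => (f u).2.1) (fun u => (f u).2.2) v⟩
      monotone' := by
        intro f g hfg v
        change G (fun u => (f u : ℝ)) v ≤ G (fun u => (g u : ℝ)) v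
        simp only [G]
        split_ifs with hv
        · apply div_le_div_of_nonneg_right _ (Nat.cast_nonneg _)
          gcongr with d
          split_ifs
          · exact hfg _
          · exact le_rfl
        · exact le_rfl }
  let f : V → ℝ := fun u => (Ψ.lfp u : ℝ)
  have hf0 : ∀ u, 0 ≤ f u := fun u => (Ψ.lfp u).2.1
  have hf1 : ∀ u, f u ≤ 1 := fun u => (Ψ.lfp u).2.2
  have hfix : ∀ v, G f v = f v := by
    intro v
    have := congrFun Ψ.map_lfp v
    exact congrArg Subtype.val this
  let Fl : V → Dart → ℝ := fun v d => if out v d then f v else 0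
  have hFl : ∀ v d, 0 ≤ Fl v d ∧ Fl v d ≤ 1 := by
    intro v d
    simp only [Fl]
    split_ifs
    · exact ⟨hf0 _, hf1 _⟩
    · exact ⟨le_rfl, zero_le_one⟩
  refine ⟨fun v d => Fl v d - Fl (mv v d) (sinv d), ?_, ?_, ?_⟩
  · intro v d
    have a := hFl v d
    have b := hFl (mv v d) (sinv d)
    rw [abs_le]; constructor <;> linarith [a.1, a.2, b.1, b.2]
  · intro v d
    simp only [hmv, sinv_sinv]; ring
  · intro v hv
    rw [Finset.sum_sub_distrib]
    have e1 : ∑ d, Fl v d = od v * f v := by
      simp only [Fl]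
      rw [← Finset.sum_filter, Finset.sum_const, nsmul_eq_mul]
    have e2 := hfix v
    simp only [G, hv, if_true] at e2
    have h3 : (3 : ℝ) ≤ od v := by exact_mod_cast hod v hv
    rw [div_eq_iff (by linarith)] at e2
    rw [e1]
    simp only [Fl]
    linarith

end Crest.Agent.LF
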