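import Crest.Agent.LF.Free
import Crest.Agent.LF.Flow

set_option autoImplicit false

namespace Crest.Agent.LF

open Crest.AnalysisR Crest.AnalysisR.PointedMetric UniformSpace

attribute [local instance] PointedMetric.metric

variable (P : PointedMetric)

lemma pairing_congr (a : P.Mol) {f g : P.M → ℝ} (h : ∀ x ∈ (P.coeffs a).support, f x = g x) :
    P.pairing a f = P.pairing a g :=
  Finsupp.sum_congr fun x hx => by rw [h x hx]

lemma pairing_sum_fun {ι : Type} (s : Finset ι) (a : P.Mol) (f : ι → P.M → ℝ) :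
    P.pairing a (fun x => ∑ i ∈ s, f i x) = ∑ i ∈ s, P.pairing a (f i) := by
  unfold pairing Finsupp.sum
  rw [Finset.sum_comm]
  exact Finset.sum_congr rfl fun x _ => Finset.mul_sum _ _ _

/-- the dual certificate at scale `(r, ρ, R)` and level `N` -/
def Cert (cidx : P.M → ℕ) (A : Set P.M) (r ρ R : ℝ) (N : ℕ) : Prop :=
  ∃ (I : Type) (_ : Fintype I) (_ : Nonempty I) (pt an : I → P.M) (τ : I × Dart → I × Dart)
    (g : I × Dart → P.M → ℝ) (H : I → P.M → ℝ), Function.Involutive τ ∧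
    (∀ p, an p ∈ A) ∧ (∀ p, dist (pt p) (an p) ≤ r) ∧ (∀ p, dist (pt p) P.base ≤ R) ∧
    (∀ i, dist (pt i.1) (pt (τ i).1) ≤ 1) ∧ (∀ i, Lp P (2 / r) (g i)) ∧
    (∀ i x, g (τ i) x = -g i x) ∧ (∀ p, Lp P (9 / ρ) (H p)) ∧
    (∀ p x, cidx x ≤ N → H p x = ∑ d, g (p, d) x) ∧ ∀ p, 1 - 4 / ρ ≤ H p (an p)

theorem not_hasBAP (cidx : P.M → ℕ)
    (h : ∀ k : ℕ, ∃ (A : Set P.M) (r ρ R : ℝ), A.Finite ∧ 16 * (k + 1) ≤ r ∧
      100 * (k + 1) * r ≤ ρ ∧ ∀ N, Cert P cidx A r ρ R N) : ¬ HasBAP P.FreeSpace := by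
  classical
  rintro ⟨lam, hlam⟩
  obtain ⟨k, hk⟩ := exists_nat_ge lam
  obtain ⟨A, r, ρ, R, hA, hr, hρ, hcert⟩ := h k
  have hk0 : (0 : ℝ) ≤ k := Nat.cast_nonneg k
  have hr1 : 16 ≤ r := by linarith
  have hρ1 : 100 ≤ ρ := by nlinarith
  obtain ⟨T, hfin, hT, hTA⟩ := hlam (del P '' A) (hA.image _).isCompact (1 / 100) (by norm_num)
  have hTx : ∀ x, ‖T x‖ ≤ k * ‖x‖ := fun x =>
    (T.le_opNorm x).trans (mul_le_mul_of_nonneg_right (hT.trans hk) (norm_nonneg _))
  let W := LinearMap.range T.toLinearMap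
  have : ProperSpace W := FiniteDimensional.proper ℝ W
  have hK : IsCompact (Subtype.val '' Metric.closedBall (0 : W) (k * R)) :=
    (isCompact_closedBall _ _).image continuous_subtype_val
  obtain ⟨s, hs⟩ := exists_net P hK (ε := 1 / 1000) (by norm_num)
  let N := s.sup fun a => (P.coeffs a).support.sup cidx
  obtain ⟨I, _, _, pt, an, τ, g, H, hτ, han, hpa, hpb, hpτ, hg, hgτ, hH, hHg, hHa⟩ := hcert N
  choose u hu1 hu2 using fun i => exists_fn P (by positivity) (hg i)
  choose U hU1 hU2 using fun p => exists_fn P (by positivity) (hH p)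
  have huτ : ∀ i x, u (τ i) x = -u i x := by
    intro i x
    induction x using Completion.induction_on with
    | hp => exact isClosed_eq (by fun_prop) (by fun_prop)
    | ih a =>
      rw [hu1, hu1, ← neg_one_mul, ← pairing_mul]
      exact pairing_congr P a fun x _ => by rw [hgτ]; ring
  have hr2 : 2 / r ≤ 1 := by rw [div_le_one (by positivity)]; linarith
  have hρ9 : 9 / ρ ≤ 9 / 100 := by gcongr
  have hρ4 : 4 / ρ ≤ 4 / 100 := by gcongr
  -- lower bound
  have hlow : ∀ p, (1 : ℝ) / 2 ≤ ∑ d, u (p, d) (T (del P (pt p))) := by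
    intro p
    obtain ⟨a, ha, hva⟩ := hs (T (del P (pt p))) ⟨⟨T (del P (pt p)), ⟨_, rfl⟩⟩, by
      rw [mem_closedBall_zero_iff]
      exact (hTx _).trans (mul_le_mul_of_nonneg_left ((norm_del P _).trans (hpb p)) hk0), rfl⟩
    set v := T (del P (pt p)) with hv
    have e1 : ∑ d, u (p, d) a = U p a := by
      simp only [hu1, hU1]
      rw [← pairing_sum_fun]
      refine pairing_congr P a fun x hx => (hHg p x ?_).symm
      exact (Finset.le_sup (f := cidx) hx).trans
        (Finset.le_sup (f := fun a => (P.coeffs a).support.sup cidx) ha)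
    have e2 : ∀ d, -(1 / 1000 : ℝ) ≤ u (p, d) (v - a) := by
      intro d
      have h1 := hu2 (p, d) (v - a)
      have h2 : 2 / r * ‖v - a‖ ≤ 1 * (1 / 1000) := by gcongr
      have := neg_abs_le (u (p, d) (v - a))
      linarith
    have e3 : -(4 / 1000 : ℝ) ≤ ∑ d, u (p, d) (v - a) := by
      calc -(4 / 1000 : ℝ) = ∑ _d : Dart, -(1 / 1000 : ℝ) := by simp; norm_num
        _ ≤ _ := Finset.sum_le_sum fun d _ => e2 d
    have e4 : ∑ d, u (p, d) v = ∑ d, u (p, d) (v - a) + ∑ d, u (p, d) a := by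
      rw [← Finset.sum_add_distrib]
      exact Finset.sum_congr rfl fun d _ => by rw [map_sub]; ring
    have e5 : U p a = U p (del P (an p)) + U p (T (del P (an p)) - del P (an p)) +
        U p (T (del P (pt p) - del P (an p))) - U p (v - a) := by
      simp only [map_sub, hv]; ring
    have e6 : U p (del P (an p)) = H p (an p) := by
      unfold del; rw [hU1, pairing_dm]
    have e7 : |U p (T (del P (an p)) - del P (an p))| ≤ 9 / 100 * (1 / 100) := by
      refine (hU2 p _).trans ?_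
      have := hTA _ ⟨_, han p, rfl⟩
      gcongr
    have e8 : |U p (T (del P (pt p) - del P (an p)))| ≤ 9 / 100 := by
      refine (hU2 p _).trans ?_
      have h1 : ‖T (del P (pt p) - del P (an p))‖ ≤ k * r :=
        (hTx _).trans (mul_le_mul_of_nonneg_left ((norm_del_sub P _ _).trans (hpa p)) hk0)
      calc 9 / ρ * ‖T (del P (pt p) - del P (an p))‖ ≤ 9 / ρ * (k * r) := by gcongr
        _ ≤ 9 / 100 := by
          rw [div_mul_eq_mul_div, div_le_div_iff₀ (by positivity) (by norm_num)]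
          nlinarith
    have e9 : |U p (v - a)| ≤ 9 / 100 * (1 / 1000) := by
      refine (hU2 p _).trans ?_
      gcongr
    have := hHa p
    rw [abs_le] at e7 e8 e9
    linarith [e7.1, e8.1, e9.2]
  -- upper bound
  have hsum : ∑ i : I × Dart, u i (T (del P (pt i.1))) =
      -∑ i : I × Dart, u i (T (del P (pt (τ i).1))) := by
    rw [← Equiv.sum_comp hτ.toPerm, ← Finset.sum_neg_distrib]
    refine Finset.sum_congr rfl fun i _ => ?_
    simp only [Function.Involutive.coe_toPerm]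
    exact huτ i _
  have hup : ∀ i : I × Dart,
      u i (T (del P (pt i.1))) - u i (T (del P (pt (τ i).1))) ≤ 1 / 8 := by
    intro i
    rw [← map_sub, ← map_sub]
    refine (le_abs_self _).trans ((hu2 i _).trans ?_)
    have h1 : ‖T (del P (pt i.1) - del P (pt (τ i).1))‖ ≤ k * 1 :=
      (hTx _).trans (mul_le_mul_of_nonneg_left ((norm_del_sub P _ _).trans (hpτ i)) hk0)
    calc 2 / r * ‖T (del P (pt i.1) - del P (pt (τ i).1))‖ ≤ 2 / r * (k * 1) := by gcongr
      _ ≤ 1 / 8 := by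
        rw [div_mul_eq_mul_div, div_le_div_iff₀ (by positivity) (by norm_num)]
        linarith
  have h1 : ∑ i : I × Dart, (u i (T (del P (pt i.1))) - u i (T (del P (pt (τ i).1)))) ≤
      ∑ _i : I × Dart, (1 / 8 : ℝ) := Finset.sum_le_sum fun i _ => hup i
  have h2 : ∑ _p : I, (1 / 2 : ℝ) ≤ ∑ p : I, ∑ d, u (p, d) (T (del P (pt p))) :=
    Finset.sum_le_sum fun p _ => hlow p
  rw [Finset.sum_sub_distrib] at h1
  rw [← Fintype.sum_prod_type (f := fun i : I × Dart => u i (T (del P (pt i.1))))] at h2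
  simp only [Finset.sum_const, Finset.card_univ, Fintype.card_prod, Fintype.card_bool,
    nsmul_eq_mul] at h1 h2
  have h3 : (0 : ℝ) < Fintype.card I := by exact_mod_cast Fintype.card_pos
  push_cast at h1
  linarith

/-- weighted graphs with a hub -/
structure WG (M : Type) where
  E : M → M → ℝ → Prop
  one_le : ∀ x y w, E x y w → 1 ≤ w
  o : M
  conn : ∀ x, x = o ∨ ∃ w, E x o w

namespace WG

variable {M : Type} (G : WG M)

def EL : Type := {f : M → ℝ // ∀ x y w, G.E x y w → |f x - f y| ≤ w}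

instance : Nonempty G.EL := ⟨⟨fun _ => 0, fun x y w h => by
  have := G.one_le x y w h; simp; linarith⟩⟩

noncomputable def d (x y : M) : ℝ := ⨆ f : G.EL, |f.1 x - f.1 y|

lemma bdd (x y : M) : BddAbove (Set.range fun f : G.EL => |f.1 x - f.1 y|) := by
  have h : ∀ x, ∃ w, ∀ f : G.EL, |f.1 x - f.1 G.o| ≤ w := by
    intro x
    rcases G.conn x with rfl | ⟨w, hw⟩
    · exact ⟨0, fun f => by simp⟩
    · exact ⟨w, fun f => f.2 _ _ _ hw⟩
  obtain ⟨a, ha⟩ := h x
  obtain ⟨b, hb⟩ := h y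
  refine ⟨a + b, ?_⟩
  rintro _ ⟨f, rfl⟩
  have := abs_sub_le (f.1 x) (f.1 G.o) (f.1 y)
  rw [abs_sub_comm (f.1 G.o)] at this
  linarith [ha f, hb f]

lemma le_d (f : G.EL) (x y : M) : |f.1 x - f.1 y| ≤ G.d x y := le_ciSup (G.bdd x y) f

lemma d_le {x y : M} {w : ℝ} (h : G.E x y w) : G.d x y ≤ w := ciSup_le fun f => f.2 _ _ _ h

lemma one_le_d {x y : M} (h : x ≠ y) : 1 ≤ G.d x y := by
  classical
  have := G.le_d ⟨fun z => if z = x then 1 else 0, fun a b w hw => by
    have := G.one_le a b w hw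
    dsimp only
    split_ifs <;> simp <;> linarith⟩ x y
  simpa [h.symm] using this

lemma lip {K : ℝ} (hK : 0 < K) {f : M → ℝ} (hf : ∀ x y w, G.E x y w → |f x - f y| ≤ K * w)
    (x y : M) : |f x - f y| ≤ K * G.d x y := by
  have := G.le_d ⟨fun z => K⁻¹ * f z, fun a b w hw => by
    rw [← mul_sub, abs_mul, abs_of_pos (inv_pos.mpr hK), inv_mul_le_iff₀ hK]
    exact hf a b w hw⟩ x y
  simp only at this
  rwa [← mul_sub, abs_mul, abs_of_pos (inv_pos.mpr hK), inv_mul_le_iff₀ hK] at this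

@[reducible] noncomputable def metric : MetricSpace M where
  dist := G.d
  dist_self x := by simp [d]
  dist_comm x y := by simp only [d, abs_sub_comm]
  dist_triangle x y z := ciSup_le fun f =>
    (abs_sub_le _ (f.1 y) _).trans (add_le_add (G.le_d f x y) (G.le_d f y z))
  eq_of_dist_eq_zero {x y} h := by
    by_contra hne
    have := G.one_le_d hne
    linarith

noncomputable def toP : PointedMetric := ⟨M, G.metric, G.o⟩

end WG

end Crest.Agent.LF
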