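import Mathlib
import Crest.Prelude.Def_LipschitzFree

set_option autoImplicit false

namespace Crest.Agent.LF

open Crest.AnalysisR Crest.AnalysisR.PointedMetric UniformSpace

attribute [local instance] PointedMetric.metric

variable (P : PointedMetric)

lemma norm_mol (a : P.Mol) : ‖a‖ = P.freeNorm a := rfl

lemma norm_mol_le (a : P.Mol) (C : ℝ) (h : ∀ f : P.Lip1, |P.pairing a f.1| ≤ C) : ‖a‖ ≤ C :=
  ciSup_le h

/-- `f` is `K`-Lipschitz and vanishes at the base point -/
def Lp (K : ℝ) (f : P.M → ℝ) : Prop := (∀ x y, |f x - f y| ≤ K * dist x y) ∧ f P.base = 0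

lemma lp_of_lip1 (f : P.Lip1) : Lp P 1 f.1 :=
  ⟨fun x y => by simpa [Real.dist_eq] using f.2.1.dist_le_mul x y, f.2.2⟩

lemma pairing_mul (a : P.Mol) (c : ℝ) (f : P.M → ℝ) :
    P.pairing a (fun x => c * f x) = c * P.pairing a f := by
  unfold pairing
  rw [Finsupp.mul_sum]
  exact Finsupp.sum_congr fun _ _ => by ring

lemma abs_pairing_le_lp {K : ℝ} (hK : 0 < K) {f : P.M → ℝ} (hf : Lp P K f) (a : P.Mol) :
    |P.pairing a f| ≤ K * ‖a‖ := by
  let g : P.Lip1 := ⟨fun x => K⁻¹ * f x, by
    apply LipschitzWith.of_dist_le_mul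
    intro x y
    rw [Real.dist_eq, ← mul_sub, abs_mul, abs_of_pos (inv_pos.mpr hK), NNReal.coe_one, one_mul,
      inv_mul_le_iff₀ hK]
    exact hf.1 x y, by simp [hf.2]⟩
  have h : |P.pairing a g.1| ≤ ‖a‖ := le_ciSup (P.freeNorm_bddAbove a) g
  simp only [g] at h
  rw [pairing_mul, abs_mul, abs_of_pos (inv_pos.mpr hK), inv_mul_le_iff₀ hK] at h
  exact h

lemma exists_fn {K : ℝ} (hK : 0 < K) {f : P.M → ℝ} (hf : Lp P K f) :
    ∃ L : P.FreeSpace →L[ℝ] ℝ, (∀ a : P.Mol, L a = P.pairing a f) ∧ ∀ x, |L x| ≤ K * ‖x‖ := by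
  let l : P.Mol →ₗ[ℝ] ℝ :=
    { toFun := fun a => P.pairing a f
      map_add' := fun a b => P.pairing_add a b f
      map_smul' := fun c a => P.pairing_smul c a f }
  let l' : P.Mol →L[ℝ] ℝ := l.mkContinuous K fun a => abs_pairing_le_lp P hK hf a
  refine ⟨l'.fromCompletion, fun a => l'.fromCompletion_apply_coe a, fun x => ?_⟩
  induction x using Completion.induction_on with
  | hp => exact isClosed_le (by fun_prop) (by fun_prop)
  | ih a =>
    rw [l'.fromCompletion_apply_coe, Completion.norm_coe]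
    exact abs_pairing_le_lp P hK hf a

/-- the molecule `δ x` -/
noncomputable def dm (x : P.M) : P.Mol := Finsupp.single x (1 : ℝ)

lemma pairing_dm (x : P.M) (f : P.M → ℝ) : P.pairing (dm P x) f = f x := by
  unfold pairing dm coeffs
  rw [Finsupp.sum_single_index] <;> simp

lemma pairing_sub (a b : P.Mol) (f : P.M → ℝ) :
    P.pairing (a - b) f = P.pairing a f - P.pairing b f := by
  rw [sub_eq_add_neg, P.pairing_add, P.pairing_neg]; ring

noncomputable def del (x : P.M) : P.FreeSpace := (dm P x : P.Mol)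

lemma norm_del_sub (x y : P.M) : ‖del P x - del P y‖ ≤ dist x y := by
  unfold del
  rw [← Completion.coe_sub, Completion.norm_coe]
  apply norm_mol_le
  intro f
  rw [pairing_sub, pairing_dm, pairing_dm]
  simpa using (lp_of_lip1 P f).1 x y

lemma norm_del (x : P.M) : ‖del P x‖ ≤ dist x P.base := by
  unfold del
  rw [Completion.norm_coe]
  apply norm_mol_le
  intro f
  rw [pairing_dm]
  simpa [(lp_of_lip1 P f).2] using (lp_of_lip1 P f).1 x P.base

open Classical in
/-- restriction of a molecule to a set -/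
noncomputable def flt (E : Set P.M) : P.Mol →ₗ[ℝ] P.Mol where
  toFun a := (Finsupp.filter (· ∈ E) (P.coeffs a) : P.M →₀ ℝ)
  map_add' a b := Finsupp.filter_add
  map_smul' c a := Finsupp.filter_smul

open Classical in
lemma coeffs_flt (E : Set P.M) (a : P.Mol) (x : P.M) :
    P.coeffs (flt P E a) x = if x ∈ E then P.coeffs a x else 0 := by
  change Finsupp.filter (· ∈ E) (P.coeffs a) x = _
  rw [Finsupp.filter_apply]

lemma mol_ext {a b : P.Mol} (h : ∀ x, P.coeffs a x = P.coeffs b x) : a = b :=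
  Finsupp.ext h

lemma pairing_flt (E : Set P.M) (a : P.Mol) (f : P.M → ℝ) :
    P.pairing (flt P E a) f = P.pairing a (E.indicator f) := by
  classical
  unfold pairing
  rw [Finsupp.sum_of_support_subset (P.coeffs (flt P E a)) (s := (P.coeffs a).support)
    (by intro x hx
        rw [Finsupp.mem_support_iff, coeffs_flt] at hx
        rw [Finsupp.mem_support_iff]
        intro h; simp [h] at hx) _ (by simp)]
  unfold Finsupp.sum
  refine Finset.sum_congr rfl fun x _ => ?_
  rw [coeffs_flt]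
  by_cases hx : x ∈ E <;> simp [hx]

lemma mol_eq_sum (a : P.Mol) : (a : P.FreeSpace) =
    ∑ x ∈ (P.coeffs a).support, P.coeffs a x • del P x := by
  have h : a = ∑ x ∈ (P.coeffs a).support, P.coeffs a x • dm P x := by
    have h1 := (Finsupp.sum_single (P.coeffs a)).symm
    change P.coeffs a = ∑ x ∈ (P.coeffs a).support, P.coeffs a x • (Finsupp.single x (1 : ℝ))
    simp only [Finsupp.smul_single, smul_eq_mul, mul_one]
    exact h1
  conv_lhs => rw [h]
  change (Completion.toComplL (𝕜 := ℝ) : P.Mol →L[ℝ] P.FreeSpace) _ = _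
  rw [map_sum]
  simp only [map_smul]
  rfl

lemma exists_op (E : Set P.M) {c : ℝ} (hc : 0 < c)
    (h : ∀ f : P.M → ℝ, Lp P 1 f → Lp P c (E.indicator f)) :
    ∃ T : P.FreeSpace →L[ℝ] P.FreeSpace, (∀ a : P.Mol, T a = (flt P E a : P.Mol)) ∧
      (∀ x, ‖T x‖ ≤ c * ‖x‖) ∧
      (E.Finite → FiniteDimensional ℝ (LinearMap.range T.toLinearMap)) := by
  have hb : ∀ a : P.Mol, ‖flt P E a‖ ≤ c * ‖a‖ := by
    intro a
    apply norm_mol_le
    intro f
    rw [pairing_flt]
    exact abs_pairing_le_lp P hc (h _ (lp_of_lip1 P f)) a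
  let l : P.Mol →L[ℝ] P.Mol := (flt P E).mkContinuous c hb
  refine ⟨l.completion, fun a => l.completion_apply_coe a, fun x => ?_, fun hE => ?_⟩
  · induction x using Completion.induction_on with
    | hp => exact isClosed_le (by fun_prop) (by fun_prop)
    | ih a =>
      rw [l.completion_apply_coe, Completion.norm_coe, Completion.norm_coe]
      exact hb a
  · let W : Submodule ℝ P.FreeSpace := Submodule.span ℝ (del P '' E)
    have : FiniteDimensional ℝ W := FiniteDimensional.span_of_finite ℝ (hE.image _)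
    have hle : LinearMap.range l.completion.toLinearMap ≤ W := by
      rintro _ ⟨x, rfl⟩
      induction x using Completion.induction_on with
      | hp => exact W.closed_of_finiteDimensional.preimage l.completion.continuous
      | ih a =>
        change l.completion a ∈ W
        rw [l.completion_apply_coe, mol_eq_sum]
        refine W.sum_mem fun x hx => W.smul_mem _ (Submodule.subset_span ⟨x, ?_, rfl⟩)
        rw [Finsupp.mem_support_iff] at hx
        change P.coeffs (flt P E a) x ≠ 0 at hx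
        rw [coeffs_flt] at hx
        by_contra hxE
        simp [hxE] at hx
    exact Submodule.finiteDimensional_of_le hle

lemma exists_net {K : Set P.FreeSpace} (hK : IsCompact K) {ε : ℝ} (hε : 0 < ε) :
    ∃ s : Finset P.Mol, ∀ x ∈ K, ∃ a ∈ s, ‖x - a‖ < ε := by
  have hcov : K ⊆ ⋃ a : P.Mol, Metric.ball (a : P.FreeSpace) ε := by
    intro x _
    obtain ⟨a, ha⟩ := Metric.denseRange_iff.mp (Completion.denseRange_coe (α := P.Mol)) x ε hε
    exact Set.mem_iUnion.mpr ⟨a, ha⟩
  obtain ⟨s, hs⟩ := hK.elim_finite_subcover _ (fun _ => Metric.isOpen_ball) hcov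
  refine ⟨s, fun x hx => ?_⟩
  obtain ⟨a, ha, hxa⟩ := Set.mem_iUnion₂.mp (hs hx)
  exact ⟨a, ha, by rwa [Metric.mem_ball, dist_eq_norm] at hxa⟩

theorem hasAP_of_levels (lev : P.M → ℕ) (C : ℕ → ℝ) (hC : ∀ k, 0 < C k)
    (hQ : ∀ k f, Lp P 1 f → Lp P 1 ({x | lev x ≤ k}.indicator f))
    (hP : ∀ k (E : Set P.M), E ⊆ {x | lev x ≤ k} → ∀ f, Lp P 1 f → Lp P (C k) (E.indicator f)) :
    HasAP P.FreeSpace := by
  classical
  intro K hK ε hε
  obtain ⟨s, hs⟩ := exists_net P hK (ε := ε / 4) (by positivity)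
  let k := s.sup fun a => (P.coeffs a).support.sup lev
  obtain ⟨Q, hQ1, hQ2, -⟩ := exists_op P {x | lev x ≤ k} one_pos (hQ k)
  have hQx : ∀ x ∈ K, ‖Q x - x‖ ≤ ε / 2 := by
    intro x hx
    obtain ⟨a, ha, hxa⟩ := hs x hx
    have h1 : Q a = a := by
      rw [hQ1]
      congr 1
      apply mol_ext
      intro y
      rw [coeffs_flt]
      split_ifs with hy
      · rfl
      · by_contra hne
        apply hy
        have h2 : y ∈ (P.coeffs a).support := Finsupp.mem_support_iff.mpr (Ne.symm hne)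
        exact (Finset.le_sup (f := lev) h2).trans
          (Finset.le_sup (f := fun a => (P.coeffs a).support.sup lev) ha)
    have h2 : Q x - x = Q (x - a) - (x - a) := by rw [map_sub, h1]; abel
    rw [h2]
    have := hQ2 (x - a)
    have := norm_sub_le (Q (x - a)) (x - a)
    linarith
  have hCk := hC k
  obtain ⟨t, ht⟩ := exists_net P hK (ε := ε / 2 / (C k + 1)) (by positivity)
  let E : Set P.M := {x | lev x ≤ k ∧ ∃ a ∈ t, x ∈ (P.coeffs a).support}
  have hE : E.Finite := by
    refine (t.biUnion fun a => (P.coeffs a).support).finite_toSet.subset ?_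
    intro x hx
    simpa using hx.2
  obtain ⟨T, hT1, hT2, hT3⟩ := exists_op P E hCk (hP k E fun x hx => hx.1)
  refine ⟨T, hT3 hE, fun x hx => ?_⟩
  obtain ⟨a, ha, hxa⟩ := ht x hx
  have h1 : T a = Q a := by
    rw [hT1, hQ1]
    congr 1
    apply mol_ext
    intro y
    rw [coeffs_flt, coeffs_flt]
    by_cases hy : P.coeffs a y = 0
    · simp [hy]
    · have : y ∈ E ↔ lev y ≤ k :=
        ⟨fun h => h.1, fun h => ⟨h, a, ha, Finsupp.mem_support_iff.mpr hy⟩⟩
      simp [this]
  have h2 : T x - x = T (x - a) - Q (x - a) + (Q x - x) := by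
    rw [map_sub, map_sub, h1]; abel
  rw [h2]
  have a1 := hT2 (x - a)
  have a2 := hQ2 (x - a)
  have a3 := hQx x hx
  have a4 := norm_add_le (T (x - a) - Q (x - a)) (Q x - x)
  have a5 := norm_sub_le (T (x - a)) (Q (x - a))
  have a6 : (C k + 1) * ‖x - a‖ ≤ ε / 2 := by
    rw [lt_div_iff₀ (by positivity)] at hxa
    linarith
  linarith

end Crest.Agent.LF
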