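import Crest.Agent.LF.Flow

set_option autoImplicit false

namespace Crest.Agent.LF

/-- number of colours -/
def cc : ℕ := 2 ^ 18

abbrev Col : Type := Fin cc

/-- reduced dart words -/
def Red (ds : List Dart) : Prop := List.IsChain (fun d d' => d' ≠ sinv d) ds

/-- the two generators of the Sanov subgroup acting on row vectors -/
def act {R : Type} [CommRing R] (v : R × R) : Dart → R × R
  | (false, true) => (v.1, v.2 + 2 * v.1)
  | (false, false) => (v.1, v.2 - 2 * v.1)
  | (true, true) => (v.1 + 2 * v.2, v.2)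
  | (true, false) => (v.1 - 2 * v.2, v.2)

lemma act_sinv {R : Type} [CommRing R] (v : R × R) (d : Dart) : act (act v d) (sinv d) = v := by
  obtain ⟨a, b⟩ := d
  cases a <;> cases b <;> simp [act, sinv]

def Reg : Dart → ℤ × ℤ → Prop
  | (false, true), v => (0 < v.1 ∧ v.1 < v.2) ∨ (v.1 < 0 ∧ v.2 < v.1)
  | (false, false), v => (0 < v.1 ∧ v.2 < -v.1) ∨ (v.1 < 0 ∧ -v.1 < v.2)
  | (true, true), v => (0 < v.2 ∧ v.2 < v.1) ∨ (v.2 < 0 ∧ v.1 < v.2)
  | (true, false), v => (0 < v.2 ∧ v.1 < -v.2) ∨ (v.2 < 0 ∧ -v.2 < v.1)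

lemma Reg.step {d d' : Dart} {v : ℤ × ℤ} (h : Reg d v) (hd : d' ≠ sinv d) : Reg d' (act v d') := by
  obtain ⟨a, b⟩ := d
  obtain ⟨a', b'⟩ := d'
  cases a <;> cases b <;> cases a' <;> cases b' <;> simp [Reg, act, sinv] at h hd ⊢ <;> omega

lemma Reg.ne {d : Dart} {v : ℤ × ℤ} (h : Reg d v) : v.1 ≠ 0 ∧ v.2 ≠ 0 := by
  obtain ⟨a, b⟩ := d
  cases a <;> cases b <;> simp [Reg] at h <;> omega

lemma act_bound {v : ℤ × ℤ} {B : ℤ} (d : Dart) (h1 : |v.1| ≤ B) (h2 : |v.2| ≤ B) :
    |(act v d).1| ≤ 3 * B ∧ |(act v d).2| ≤ 3 * B := by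
  rw [abs_le] at h1 h2
  obtain ⟨a, b⟩ := d
  cases a <;> cases b <;> simp only [act, abs_le] <;> omega

lemma foldl_reg : ∀ (ds : List Dart) (d : Dart) (v : ℤ × ℤ) (B : ℤ), Reg d v → Red (d :: ds) →
    |v.1| ≤ B → |v.2| ≤ B →
    (ds.foldl act v).1 ≠ 0 ∧ (ds.foldl act v).2 ≠ 0 ∧
      |(ds.foldl act v).1| ≤ 3 ^ ds.length * B ∧ |(ds.foldl act v).2| ≤ 3 ^ ds.length * B := by
  intro ds
  induction ds with
  | nil => intro d v B h _ h1 h2; simpa using ⟨h.ne.1, h.ne.2, h1, h2⟩
  | cons d' ds ih =>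
    intro d v B h hr h1 h2
    unfold Red at hr
    rw [List.isChain_cons_cons] at hr
    have := ih d' (act v d') (3 * B) (h.step hr.1) hr.2 (act_bound d' h1 h2).1
      (act_bound d' h1 h2).2
    simp only [List.foldl_cons, List.length_cons]
    rw [pow_succ, mul_assoc]
    exact this

lemma foldl_cast {R : Type} [CommRing R] : ∀ (ds : List Dart) (v : ℤ × ℤ),
    ds.foldl act (((v.1 : ℤ) : R), ((v.2 : ℤ) : R)) =
      ((((ds.foldl act v).1 : ℤ) : R), (((ds.foldl act v).2 : ℤ) : R)) := by
  intro ds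
  induction ds with
  | nil => intro v; rfl
  | cons d ds ih =>
    intro v
    simp only [List.foldl_cons]
    rw [← ih]
    congr 1
    obtain ⟨a, b⟩ := d
    cases a <;> cases b <;> simp [act]

lemma foldl_lin {R : Type} [CommRing R] : ∀ (ds : List Dart) (u w : R × R) (p q : R),
    ds.foldl act (p * u.1 + q * w.1, p * u.2 + q * w.2) =
      (p * (ds.foldl act u).1 + q * (ds.foldl act w).1,
        p * (ds.foldl act u).2 + q * (ds.foldl act w).2) := by
  intro ds
  induction ds with
  | nil => intro u w p q; rfl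
  | cons d ds ih =>
    intro u w p q
    simp only [List.foldl_cons]
    rw [← ih]
    congr 1
    obtain ⟨a, b⟩ := d
    cases a <;> cases b <;> simp only [act, Prod.mk.injEq, true_and, and_true] <;> ring

lemma cast_ne_zero {L : ℕ} {x : ℤ} (h0 : x ≠ 0) (h : |x| < 4 ^ L) : (x : ZMod (4 ^ L)) ≠ 0 := by
  intro hx
  rw [ZMod.intCast_zmod_eq_zero_iff_dvd] at hx
  have := Int.le_of_dvd (abs_pos.mpr h0) ((dvd_abs _ _).mpr hx)
  push_cast at this
  omega

lemma not_fix {L : ℕ} (ds : List Dart) (hne : ds ≠ []) (hr : Red ds) (hl : ds.length ≤ L) :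
    ¬ (ds.foldl act ((1 : ZMod (4 ^ L)), 0) = (1, 0) ∧
      ds.foldl act ((0 : ZMod (4 ^ L)), 1) = (0, 1)) := by
  rintro ⟨h1, h2⟩
  obtain ⟨d, ds, rfl⟩ := List.exists_cons_of_ne_nil hne
  have hlt : (3 : ℤ) ^ ds.length * 3 < 4 ^ L := by
    rw [← pow_succ]
    simp only [List.length_cons] at hl
    calc (3 : ℤ) ^ (ds.length + 1) < 4 ^ (ds.length + 1) :=
          pow_lt_pow_left₀ (by norm_num) (by norm_num) (by omega)
      _ ≤ 4 ^ L := pow_le_pow_right₀ (by norm_num) hl
  obtain ⟨a, b⟩ := d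
  cases a
  · have hreg : Reg (false, b) (act (1, 0) (false, b)) := by cases b <;> simp [Reg, act]
    have hb : |(act ((1 : ℤ), (0 : ℤ)) (false, b)).1| ≤ 3 ∧
        |(act ((1 : ℤ), (0 : ℤ)) (false, b)).2| ≤ 3 := by
      cases b <;> simp [act]
    obtain ⟨_, a2, _, a4⟩ := foldl_reg ds _ _ 3 hreg hr hb.1 hb.2
    have hc := foldl_cast (R := ZMod (4 ^ L)) ((false, b) :: ds) (1, 0)
    simp only [Int.cast_one, Int.cast_zero] at hc
    rw [h1] at hc
    exact cast_ne_zero a2 (a4.trans_lt hlt) (congrArg Prod.snd hc).symm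
  · have hreg : Reg (true, b) (act (0, 1) (true, b)) := by cases b <;> simp [Reg, act]
    have hb : |(act ((0 : ℤ), (1 : ℤ)) (true, b)).1| ≤ 3 ∧
        |(act ((0 : ℤ), (1 : ℤ)) (true, b)).2| ≤ 3 := by
      cases b <;> simp [act]
    obtain ⟨a1, _, a3, _⟩ := foldl_reg ds _ _ 3 hreg hr hb.1 hb.2
    have hc := foldl_cast (R := ZMod (4 ^ L)) ((true, b) :: ds) (0, 1)
    simp only [Int.cast_one, Int.cast_zero] at hc
    rw [h2] at hc
    exact cast_ne_zero a1 (a3.trans_lt hlt) (congrArg Prod.fst hc).symm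

/-- finite 4-regular dart graphs of logarithmic girth -/
theorem exists_girth (L : ℕ) : ∃ (V : Type) (_ : Fintype V) (_ : Nonempty V) (mv : V → Dart → V),
    (∀ v d, mv (mv v d) (sinv d) = v) ∧ Fintype.card V ≤ 256 ^ L ∧
      ∀ v ds, ds ≠ [] → Red ds → ds.length ≤ L → ds.foldl mv v ≠ v := by
  classical
  let R := ZMod (4 ^ L)
  have : NeZero (4 ^ L) := ⟨by positivity⟩
  let V := {x : (R × R) × (R × R) // x.1.1 * x.2.2 - x.1.2 * x.2.1 = 1}
  let mv : V → Dart → V := fun x d => ⟨(act x.1.1 d, act x.1.2 d), by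
    have := x.2
    obtain ⟨a, b⟩ := d
    cases a <;> cases b <;> simp only [act] <;> linear_combination this⟩
  have hfold : ∀ (ds : List Dart) (x : V),
      (ds.foldl mv x).1 = (ds.foldl act x.1.1, ds.foldl act x.1.2) := by
    intro ds
    induction ds with
    | nil => intro x; rfl
    | cons d ds ih => intro x; simp only [List.foldl_cons]; rw [ih]
  refine ⟨V, inferInstance, ⟨⟨((1, 0), (0, 1)), by simp⟩⟩, mv, ?_, ?_, ?_⟩
  · intro v d
    apply Subtype.ext
    simp only [mv, act_sinv]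
  · calc Fintype.card V ≤ Fintype.card ((R × R) × (R × R)) := Fintype.card_subtype_le _
      _ = 256 ^ L := by
        simp only [Fintype.card_prod, R, ZMod.card]
        rw [← mul_pow, ← mul_pow]; norm_num
  · intro v ds hne hr hl hfix
    apply not_fix ds hne hr hl
    have h := hfold ds v
    rw [hfix] at h
    obtain ⟨⟨⟨p, q⟩, ⟨r, s⟩⟩, hdet⟩ := v
    have h1 := foldl_lin ds ((1 : R), 0) (0, 1) p q
    have h2 := foldl_lin ds ((1 : R), 0) (0, 1) r s
    simp only [mul_one, mul_zero, add_zero, zero_add] at h1 h2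
    simp only [Prod.mk.injEq] at h
    rw [← h.1] at h1
    rw [← h.2] at h2
    simp only [Prod.mk.injEq] at h1 h2 hdet
    constructor
    · apply Prod.ext
      · linear_combination (-(List.foldl act ((1 : R), (0 : R)) ds).1 + 1) * hdet - s * h1.1 + q * h2.1
      · linear_combination (-(List.foldl act ((1 : R), (0 : R)) ds).2) * hdet - s * h1.2 + q * h2.2
    · apply Prod.ext
      · linear_combination (-(List.foldl act ((0 : R), (1 : R)) ds).1) * hdet + r * h1.1 - p * h2.1
      · linear_combination (-(List.foldl act ((0 : R), (1 : R)) ds).2 + 1) * hdet + r * h1.2 - p * h2.2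

/-- coloured dart graphs -/
structure CG where
  V : Type
  fin : Fintype V
  ne : Nonempty V
  mv : V → Dart → V
  mv_inv : ∀ v d, mv (mv v d) (sinv d) = v
  col : V → Col

def Matched {A B : Type} (mA : A → Dart → A) (cA : A → Col) (mB : B → Dart → B) (cB : B → Col) :
    List Dart → A → B → Prop
  | [], z, e => cA z = cB e
  | d :: ds, z, e => cA z = cB e ∧ Matched mA cA mB cB ds (mA z d) (mB e d)

def verts {A : Type} (mA : A → Dart → A) : List Dart → A → List A
  | [], z => [z]
  | d :: ds, z => z :: verts mA ds (mA z d)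

lemma verts_length {A : Type} (mA : A → Dart → A) : ∀ ds z, (verts mA ds z).length = ds.length + 1
  | [], _ => rfl
  | _ :: ds, _ => by simp [verts, verts_length mA ds]

lemma mem_verts {A : Type} (mA : A → Dart → A) : ∀ ds z x, x ∈ verts mA ds z →
    ∃ pre, pre <+: ds ∧ x = pre.foldl mA z
  | [], z, x, h => ⟨[], List.nil_prefix, by simpa [verts] using h⟩
  | d :: ds, z, x, h => by
    simp only [verts, List.mem_cons] at h
    rcases h with h | h
    · exact ⟨[], List.nil_prefix, h⟩
    · obtain ⟨pre, h1, h2⟩ := mem_verts mA ds _ x h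
      exact ⟨d :: pre, by simpa using h1, h2⟩

lemma verts_nodup {A : Type} (mA : A → Dart → A) (L : ℕ)
    (h : ∀ v ds, ds ≠ [] → Red ds → ds.length ≤ L → ds.foldl mA v ≠ v) :
    ∀ ds z, Red ds → ds.length ≤ L → (verts mA ds z).Nodup
  | [], z, _, _ => by simp [verts]
  | d :: ds, z, hr, hl => by
    simp only [verts, List.nodup_cons]
    refine ⟨fun hz => ?_, verts_nodup mA L h ds _ (List.IsChain.tail hr) (by simp at hl; omega)⟩
    obtain ⟨pre, h1, h2⟩ := mem_verts mA ds _ z hz
    have h3 : d :: pre <+: d :: ds := by simpa using h1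
    exact h z (d :: pre) (by simp) (List.IsChain.prefix hr h3) (h3.length_le.trans hl) h2.symm

lemma matched_agree {A B : Type} (mA : A → Dart → A) (c c' : A → Col) (mB : B → Dart → B)
    (cB : B → Col) : ∀ ds z e, Matched mA c mB cB ds z e → Matched mA c' mB cB ds z e →
      ∀ x ∈ verts mA ds z, c x = c' x
  | [], z, e, h, h', x, hx => by
    simp only [verts, List.mem_singleton] at hx
    subst hx
    exact h.trans h'.symm
  | d :: ds, z, e, h, h', x, hx => by
    simp only [verts, List.mem_cons] at hx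
    rcases hx with hx | hx
    · subst hx; exact h.1.trans h'.1.symm
    · exact matched_agree mA c c' mB cB ds _ _ h.2 h'.2 x hx

lemma card_agree {A : Type} [Fintype A] [DecidableEq A] (I : Finset A) (c₀ : A → Col) :
    (Finset.univ.filter fun c : A → Col => ∀ x ∈ I, c x = c₀ x).card * cc ^ I.card ≤
      cc ^ Fintype.card A := by
  classical
  have h1 : (Finset.univ.filter fun c : A → Col => ∀ x ∈ I, c x = c₀ x) ⊆
      Fintype.piFinset fun x => if x ∈ I then {c₀ x} else Finset.univ := by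
    intro c hc
    simp only [Finset.mem_filter, Finset.mem_univ, true_and] at hc
    rw [Fintype.mem_piFinset]
    intro x
    split_ifs with hx
    · simp [hc x hx]
    · simp
  have h2 := Finset.card_le_card h1
  rw [Fintype.card_piFinset] at h2
  have h3 : ∏ x : A, (if x ∈ I then ({c₀ x} : Finset Col) else Finset.univ).card =
      cc ^ (Iᶜ).card := by
    rw [← Finset.prod_const, ← Finset.prod_filter_mul_prod_filter_not Finset.univ (· ∈ I)]
    rw [Finset.prod_eq_one (by intro x hx; simp at hx; simp [hx]), one_mul]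
    apply Finset.prod_congr
    · ext x; simp
    · intro x hx; simp at hx; simp [hx]
  rw [h3] at h2
  calc _ ≤ cc ^ (Iᶜ).card * cc ^ I.card := Nat.mul_le_mul_right _ h2
    _ = _ := by rw [← pow_add, Finset.card_compl_add_card]

open Classical in
lemma card_matched {A B : Type} [Fintype A] (mA : A → Dart → A) (mB : B → Dart → B)
    (cB : B → Col) (L : ℕ)
    (h : ∀ v ds, ds ≠ [] → Red ds → ds.length ≤ L → ds.foldl mA v ≠ v)
    (ds : List Dart) (hl : ds.length = L) (z : A) (e : B) :
    (Finset.univ.filter fun c : A → Col => Red ds ∧ Matched mA c mB cB ds z e).card *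
      cc ^ (L + 1) ≤ cc ^ Fintype.card A := by
  by_cases hne : ∃ c₀ : A → Col, Red ds ∧ Matched mA c₀ mB cB ds z e
  · obtain ⟨c₀, hr, hc₀⟩ := hne
    have h1 := card_agree (verts mA ds z).toFinset c₀
    rw [List.toFinset_card_of_nodup (verts_nodup mA L h ds z hr hl.le), verts_length, hl] at h1
    refine le_trans (Nat.mul_le_mul_right _ (Finset.card_le_card ?_)) h1
    intro c hc
    simp only [Finset.mem_filter, Finset.mem_univ, true_and, List.mem_toFinset] at hc ⊢
    exact matched_agree mA c c₀ mB cB ds z e hc.2 hc₀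
  · rw [Finset.filter_eq_empty_iff.mpr (fun c _ hc => hne ⟨c, hc⟩)]
    simp

/-- no long reduced word can be read with matching colours in both graphs -/
def Sep (H G : CG) : Prop :=
  ∃ L, ∀ ds z e, ds.length = L → Red ds → ¬ Matched G.mv G.col H.mv H.col ds z e

theorem exists_family : ∃ Z : ℕ → CG, ∀ i n, i < n → Sep (Z i) (Z n) := by
  classical
  suffices h : ∀ s : Finset CG, ∃ y : CG, ∀ x ∈ s, Sep x y by
    obtain ⟨f, _, hf⟩ := exists_seq_of_forall_finset_exists (fun _ : CG => True) Sep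
      (fun s _ => by obtain ⟨y, hy⟩ := h s; exact ⟨y, trivial, hy⟩)
    exact ⟨f, hf⟩
  intro s
  let T := ∑ x ∈ s, @Fintype.card x.V x.fin
  let L := T
  obtain ⟨V, hV, hne, mv, hinv, hcard, hfree⟩ := exists_girth L
  let bad : CG → Finset (V → Col) := fun H =>
    (@Finset.univ H.V H.fin).biUnion fun e => (Finset.univ : Finset V).biUnion fun z =>
      (Finset.univ : Finset (List.Vector Dart L)).biUnion fun ds =>
        Finset.univ.filter fun c : V → Col => Red ds.1 ∧ Matched mv c H.mv H.col ds.1 z e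
  have hbad : ∀ H : CG, (bad H).card * cc ^ (L + 1) ≤
      @Fintype.card H.V H.fin * (256 ^ L * 4 ^ L * cc ^ Fintype.card V) := by
    intro H
    let _ := H.fin
    calc (bad H).card * cc ^ (L + 1)
        ≤ (∑ e : H.V, ∑ z : V, ∑ ds : List.Vector Dart L,
          (Finset.univ.filter fun c : V → Col =>
            Red ds.1 ∧ Matched mv c H.mv H.col ds.1 z e).card) * cc ^ (L + 1) := by
          apply Nat.mul_le_mul_right
          refine Finset.card_biUnion_le.trans (Finset.sum_le_sum fun e _ => ?_)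
          refine Finset.card_biUnion_le.trans (Finset.sum_le_sum fun z _ => ?_)
          exact Finset.card_biUnion_le
      _ ≤ ∑ e : H.V, ∑ z : V, ∑ ds : List.Vector Dart L, cc ^ Fintype.card V := by
          simp only [Finset.sum_mul]
          refine Finset.sum_le_sum fun e _ => Finset.sum_le_sum fun z _ =>
            Finset.sum_le_sum fun ds _ => ?_
          convert card_matched mv H.mv H.col L hfree ds.1 ds.2 z e
      _ = Fintype.card H.V * (Fintype.card V * 4 ^ L * cc ^ Fintype.card V) := by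
          simp [mul_assoc]
      _ ≤ _ := by gcongr
  have hlt : (s.biUnion bad).card < (Finset.univ : Finset (V → Col)).card := by
    have hc : 0 < cc := by unfold cc; positivity
    have h1 : (s.biUnion bad).card * cc ^ (L + 1) ≤
        T * (256 ^ L * 4 ^ L * cc ^ Fintype.card V) := by
      calc (s.biUnion bad).card * cc ^ (L + 1) ≤ (∑ H ∈ s, (bad H).card) * cc ^ (L + 1) :=
            Nat.mul_le_mul_right _ Finset.card_biUnion_le
        _ ≤ _ := by
            rw [Finset.sum_mul, Finset.sum_mul]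
            exact Finset.sum_le_sum fun H _ => hbad H
    have h2 : T * (256 ^ L * 4 ^ L) < cc ^ (L + 1) := by
      have h3 : T < 256 ^ L := Nat.lt_pow_self (by norm_num)
      calc T * (256 ^ L * 4 ^ L) < 256 ^ L * (256 ^ L * 4 ^ L) :=
            Nat.mul_lt_mul_of_pos_right h3 (by positivity)
        _ = cc ^ L := by rw [← mul_pow, ← mul_pow]; norm_num [cc]
        _ ≤ cc ^ (L + 1) := Nat.pow_le_pow_right hc (by omega)
    have h4 : (Finset.univ : Finset (V → Col)).card = cc ^ Fintype.card V := by simp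
    rw [h4]
    have h5 : (s.biUnion bad).card * cc ^ (L + 1) < cc ^ Fintype.card V * cc ^ (L + 1) := by
      calc _ ≤ _ := h1
        _ = T * (256 ^ L * 4 ^ L) * cc ^ Fintype.card V := by ring
        _ < cc ^ (L + 1) * cc ^ Fintype.card V :=
            Nat.mul_lt_mul_of_pos_right h2 (by positivity)
        _ = _ := mul_comm _ _
    exact Nat.lt_of_mul_lt_mul_right h5
  obtain ⟨c, _, hc⟩ := Finset.exists_mem_notMem_of_card_lt_card hlt
  refine ⟨⟨V, hV, hne, mv, hinv, c⟩, fun H hH => ⟨L, fun ds z e hl hr hm => hc ?_⟩⟩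
  simp only [Finset.mem_biUnion, bad]
  refine ⟨H, hH, e, @Finset.mem_univ _ H.fin _, z, Finset.mem_univ _, ⟨ds, hl⟩,
    Finset.mem_univ _, ?_⟩
  simp only [Finset.mem_filter, Finset.mem_univ, true_and]
  exact ⟨hr, hm⟩

end Crest.Agent.LF
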