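import Crest.Agent.LF.Quot
import Crest.Agent.LF.Girth

set_option autoImplicit false

namespace Crest.Agent.LF

abbrev Let : Type := Bool × Col × Col

/-- label of a dart -/
def lab (G : CG) (z : G.V) (d : Dart) : Let × Bool :=
  if d.2 then ((d.1, G.col z, G.col (G.mv z d)), true)
  else ((d.1, G.col (G.mv z d), G.col z), false)

def dl (l : Let × Bool) : Dart := (l.1.1, l.2)

@[simp] lemma dl_lab (G : CG) (z : G.V) (d : Dart) : dl (lab G z d) = d := by
  obtain ⟨a, b⟩ := d
  cases b <;> simp [dl, lab]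

lemma dl_sinv (l : Let × Bool) : dl (sinv l) = sinv (dl l) := rfl

lemma lab_sinv (G : CG) (z : G.V) (d : Dart) :
    lab G (G.mv z d) (sinv d) = sinv (lab G z d) := by
  have h := G.mv_inv z d
  obtain ⟨a, b⟩ := d
  cases b <;> simp [lab, sinv] at h ⊢ <;> rw [h]

lemma lab_eq {G H : CG} {z : G.V} {e : H.V} {d : Dart} (h : lab H e d = lab G z d) :
    G.col z = H.col e ∧ G.col (G.mv z d) = H.col (H.mv e d) := by
  obtain ⟨a, b⟩ := d
  cases b <;> simp [lab] at h <;> simp [h.1, h.2]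

lemma lab_ne (G : CG) (z : G.V) {d d' : Dart} (h : d' ≠ sinv d) :
    lab G (G.mv z d) d' ≠ sinv (lab G z d) := by
  intro h1
  have := congrArg dl h1
  rw [dl_sinv, dl_lab, dl_lab] at this
  exact h this

abbrev Core (Z : ℕ → CG) : Type := Option (Σ n, (Z n).V)

variable {Z : ℕ → CG}

def rd : Core Z → Let × Bool → Prop
  | none, _ => False
  | some ⟨n, e⟩, l => lab (Z n) e (dl l) = l

def cm : Core Z → Let × Bool → Core Z
  | none, _ => none
  | some ⟨n, e⟩, l => some ⟨n, (Z n).mv e (dl l)⟩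

def low (N : ℕ) : Core Z → Prop
  | none => True
  | some ⟨n, _⟩ => n < N

lemma low_cm (N : ℕ) (c : Core Z) (l : Let × Bool) : low N (cm c l) ↔ low N c := by
  rcases c with _ | ⟨n, e⟩ <;> rfl

lemma rd_cm {c : Core Z} {l : Let × Bool} (h : rd c l) :
    rd (cm c l) (sinv l) ∧ cm (cm c l) (sinv l) = c := by
  rcases c with _ | ⟨n, e⟩
  · exact h.elim
  · simp only [rd, cm] at h ⊢
    rw [dl_sinv, lab_sinv, h, (Z n).mv_inv]
    exact ⟨rfl, rfl⟩

def Valid (c : Core Z) : List (Let × Bool) → Prop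
  | [] => True
  | [l] => ¬ rd c l
  | l₂ :: l₁ :: L => l₂ ≠ sinv l₁ ∧ Valid c (l₁ :: L)

lemma Valid.tail {c : Core Z} {l : Let × Bool} {L : List (Let × Bool)} (h : Valid c (l :: L)) :
    Valid c L := by
  cases L with
  | nil => trivial
  | cons a L => exact h.2

open Classical in
noncomputable def step (l : Let × Bool) :
    Core Z × List (Let × Bool) → Core Z × List (Let × Bool)
  | (c, []) => if rd c l then (cm c l, []) else (c, [l])
  | (c, l₁ :: L) => if l = sinv l₁ then (c, L) else (c, l :: l₁ :: L)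

lemma step_valid (l : Let × Bool) (x : Core Z × List (Let × Bool)) (h : Valid x.1 x.2) :
    Valid (step l x).1 (step l x).2 := by
  obtain ⟨c, L⟩ := x
  cases L with
  | nil =>
    simp only [step]
    split_ifs with h1
    · trivial
    · exact h1
  | cons l₁ L =>
    simp only [step]
    split_ifs with h1
    · exact h.tail
    · exact ⟨h1, h⟩

lemma step_step (l : Let × Bool) (x : Core Z × List (Let × Bool)) (h : Valid x.1 x.2) :
    step (sinv l) (step l x) = x := by
  obtain ⟨c, L⟩ := x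
  cases L with
  | nil =>
    by_cases h1 : rd c l
    · simp [step, h1, rd_cm h1]
    · simp [step, h1]
  | cons l₁ L =>
    by_cases h1 : l = sinv l₁
    · subst h1
      cases L with
      | nil =>
        have : ¬ rd c l₁ := h
        simp [step, this]
      | cons l₀ L =>
        have : l₁ ≠ sinv l₀ := h.1
        simp [step, this]
    · simp [step, h1]

lemma step_low (N : ℕ) (l : Let × Bool) (x : Core Z × List (Let × Bool)) :
    low N (step l x).1 ↔ low N x.1 := by
  obtain ⟨c, L⟩ := x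
  cases L with
  | nil => simp only [step]; split_ifs; exacts [low_cm _ _ _, Iff.rfl]
  | cons l₁ L => simp only [step]; split_ifs <;> rfl

lemma step_len (l : Let × Bool) (x : Core Z × List (Let × Bool)) :
    (step l x).2.length ≤ x.2.length + 1 := by
  obtain ⟨c, L⟩ := x
  cases L with
  | nil => simp only [step]; split_ifs <;> simp
  | cons l₁ L => simp only [step]; split_ifs <;> simp; omega

def Nd (Z : ℕ → CG) : Type := {x : Core Z × List (Let × Bool) // Valid x.1 x.2}

noncomputable def stepP (l : Let × Bool) : Equiv.Perm (Nd Z) where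
  toFun x := ⟨step l x.1, step_valid l x.1 x.2⟩
  invFun x := ⟨step (sinv l) x.1, step_valid _ x.1 x.2⟩
  left_inv x := Subtype.ext (step_step l x.1 x.2)
  right_inv x := Subtype.ext (by simpa using step_step (sinv l) x.1 x.2)

noncomputable def Psi (Z : ℕ → CG) : FreeGroup Let →* Equiv.Perm (Nd Z) :=
  FreeGroup.lift fun s => stepP (s, true)

lemma Psi_lt (l : Let × Bool) (x : Nd Z) : (Psi Z (lt l) x).1 = step l x.1 := by
  obtain ⟨s, b⟩ := l
  cases b
  · rw [lt_false, map_inv]
    simp only [Psi, FreeGroup.lift_apply_of]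
    rfl
  · rw [lt_true]
    simp only [Psi, FreeGroup.lift_apply_of]
    rfl

def nd (c : Core Z) : Nd Z := ⟨(c, []), trivial⟩

lemma Psi_nd (n : ℕ) (e : (Z n).V) (d : Dart) :
    Psi Z (lt (lab (Z n) e d)) (nd (some ⟨n, e⟩)) = nd (some ⟨n, (Z n).mv e d⟩) := by
  apply Subtype.ext
  rw [Psi_lt]
  simp [nd, step, rd, cm]

lemma Psi_mk (N : ℕ) (x : Nd Z) : ∀ L : List (Let × Bool),
    (low N (Psi Z (FreeGroup.mk L) x).1.1 ↔ low N x.1.1) ∧
      (Psi Z (FreeGroup.mk L) x).1.2.length ≤ x.1.2.length + L.length := by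
  intro L
  induction L with
  | nil => rw [← FreeGroup.one_eq_mk]; simp
  | cons l L ih =>
    rw [mk_cons, map_mul, Equiv.Perm.mul_apply, Psi_lt]
    refine ⟨(step_low N l _).trans ih.1, ?_⟩
    have := step_len l (Psi Z (FreeGroup.mk L) x).1
    simp only [List.length_cons]
    omega

lemma Matched.prefix {A B : Type} {mA : A → Dart → A} {cA : A → Col} {mB : B → Dart → B}
    {cB : B → Col} : ∀ (p s : List Dart) (z : A) (e : B), Matched mA cA mB cB (p ++ s) z e →
      Matched mA cA mB cB p z e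
  | [], [], _, _, h => h
  | [], _ :: _, _, _, h => h.1
  | _ :: p, s, _, _, h => ⟨h.1, Matched.prefix p s _ _ h.2⟩

section walks

variable (N ρ : ℕ)

noncomputable def smv (v : (Z N).V × Nd Z) (d : Dart) : (Z N).V × Nd Z :=
  ((Z N).mv v.1 d, Psi Z (lt (lab (Z N) v.1 d)) v.2)

def Rg : Set ((Z N).V × Nd Z) := {v | low N v.2.1.1 ∧ v.2.1.2.length ≤ ρ}

lemma smv_inv (v : (Z N).V × Nd Z) (d : Dart) : smv N (smv N v d) (sinv d) = v := by
  simp only [smv, (Z N).mv_inv, lab_sinv, lt_sinv, map_inv]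
  simp

lemma walk_push : ∀ (m : ℕ) (v : (Z N).V × Nd Z) (d : Dart),
    (step (lab (Z N) v.1 d) v.2.1).2 = lab (Z N) v.1 d :: v.2.1.2 →
    Walk (smv N) (Rg N ρ) (m + 1) v d → v.2.1.2.length + m + 1 ≤ ρ := by
  intro m
  induction m with
  | zero =>
    intro v d hp hw
    have := hw.1.2
    simp only [smv, Psi_lt, hp, List.length_cons] at this
    omega
  | succ m ih =>
    intro v d hp hw
    obtain ⟨_, d', hd', hw'⟩ := hw
    have h1 : (smv N v d).2.1.2 = lab (Z N) v.1 d :: v.2.1.2 := by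
      simp only [smv, Psi_lt, hp]
    have := ih (smv N v d) d' (by
      have h2 : (smv N v d).2.1 = ((smv N v d).2.1.1, lab (Z N) v.1 d :: v.2.1.2) := by
        rw [← h1]
      rw [h2]
      have h3 : lab (Z N) (smv N v d).1 d' ≠ sinv (lab (Z N) v.1 d) := lab_ne _ _ hd'
      simp only [step, h3, if_false]) hw'
    rw [h1] at this
    simp only [List.length_cons] at this
    omega

lemma walk_core (n : ℕ) : ∀ (j : ℕ) (z : (Z N).V) (e : (Z n).V) (d : Dart),
    Walk (smv N) (Rg N ρ) (j + ρ + 1) (z, nd (some ⟨n, e⟩)) d →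
    ∃ ds : List Dart, ds.length = j ∧ Red (d :: ds) ∧
      Matched (Z N).mv (Z N).col (Z n).mv (Z n).col (d :: ds) z e := by
  have hrd : ∀ (j : ℕ) (z : (Z N).V) (e : (Z n).V) (d : Dart),
      Walk (smv N) (Rg N ρ) (j + ρ + 1) (z, nd (some ⟨n, e⟩)) d →
      lab (Z n) e d = lab (Z N) z d := by
    intro j z e d hw
    by_contra hc
    have := walk_push N ρ (j + ρ) (z, nd (some ⟨n, e⟩)) d (by simp [nd, step, rd, hc]) hw
    omega
  intro j
  induction j with
  | zero =>
    intro z e d hw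
    have := lab_eq (hrd 0 z e d hw)
    exact ⟨[], rfl, by simp [Red], this.1, this.2⟩
  | succ j ih =>
    intro z e d hw
    have h1 := hrd (j + 1) z e d hw
    have h2 := lab_eq h1
    rw [show j + 1 + ρ + 1 = (j + ρ + 1) + 1 by omega] at hw
    obtain ⟨_, d', hd', hw'⟩ := hw
    have h3 : smv N (z, nd (some ⟨n, e⟩)) d = ((Z N).mv z d, nd (some ⟨n, (Z n).mv e d⟩)) := by
      simp only [smv]
      rw [← h1, Psi_nd]
    rw [h3] at hw'
    obtain ⟨ds, a1, a2, a3⟩ := ih _ _ _ hw'
    refine ⟨d' :: ds, by simp [a1], ?_, h2.1, a3⟩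
    unfold Red
    rw [List.isChain_cons_cons]
    exact ⟨hd', a2⟩

lemma walk_all (L : ℕ) (hL : ∀ n < N, ∀ ds z e, ds.length = L + 1 → Red ds →
      ¬ Matched (Z N).mv (Z N).col (Z n).mv (Z n).col ds z e) :
    ∀ (k : ℕ) (v : (Z N).V × Nd Z) (d : Dart), v.2.1.2.length = k → low N v.2.1.1 →
      ¬ Walk (smv N) (Rg N ρ) (k + (L + ρ + 1)) v d := by
  intro k
  induction k with
  | zero =>
    rintro ⟨z, ⟨⟨c, l⟩, hv⟩⟩ d hk hlow hw
    simp only [List.length_eq_zero_iff] at hk
    subst hk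
    rw [zero_add] at hw
    rcases c with _ | ⟨n, e⟩
    · have := walk_push N ρ (L + ρ) _ d (by simp [step, rd]) hw
      omega
    · obtain ⟨ds, a1, a2, a3⟩ := walk_core N ρ n L z e d hw
      exact hL n hlow (d :: ds) z e (by simp [a1]) a2 a3
  | succ k ih =>
    rintro ⟨z, ⟨⟨c, l⟩, hv⟩⟩ d hk hlow hw
    obtain ⟨l₁, l', rfl⟩ := List.exists_cons_of_length_eq_add_one hk
    by_cases hp : lab (Z N) z d = sinv l₁
    · rw [show k + 1 + (L + ρ + 1) = (k + (L + ρ + 1)) + 1 by omega] at hw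
      obtain ⟨hR, d', hd', hw'⟩ := hw
      refine ih _ d' ?_ hR.1 hw'
      simp only [smv, Psi_lt, step, hp, if_true]
      simpa using hk
    · have := walk_push N ρ (k + 1 + (L + ρ)) _ d (by simp [step, hp]) hw
      omega

end walks

theorem exists_theta (N ρ : ℕ) (hsep : ∀ i < N, Sep (Z i) (Z N)) :
    ∃ θ : (Z N).V × Nd Z → Dart → ℝ, (∀ v d, |θ v d| ≤ 1) ∧
      (∀ z ν d, θ ((Z N).mv z d, Psi Z (lt (lab (Z N) z d)) ν) (sinv d) = -θ (z, ν) d) ∧
      ∀ z (c : Core Z) (w : FreeGroup Let), low N c → w.norm ≤ ρ →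
        ∑ d, θ (z, Psi Z w (nd c)) d = 1 := by
  classical
  choose! Lf hLf using hsep
  let L := (Finset.range N).sup Lf
  have hL : ∀ n < N, ∀ ds z e, ds.length = L + 1 → Red ds →
      ¬ Matched (Z N).mv (Z N).col (Z n).mv (Z n).col ds z e := by
    intro n hn ds z e hl hr hm
    have h1 : Lf n ≤ L := Finset.le_sup (f := Lf) (Finset.mem_range.mpr hn)
    refine hLf n hn (ds.take (Lf n)) z e (by simp; omega)
      (List.IsChain.prefix hr (List.take_prefix _ _)) ?_
    rw [← List.take_append_drop (Lf n) ds] at hm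
    exact Matched.prefix _ _ _ _ hm
  obtain ⟨θ, h1, h2, h3⟩ := exists_flow (smv (Z := Z) N) (smv_inv N) (Rg N ρ) (ρ + (L + ρ + 1))
    (by
      intro v hv d hw
      obtain ⟨k, hk⟩ : ∃ k, ρ = v.2.1.2.length + k := ⟨ρ - v.2.1.2.length, by have := hv.2; omega⟩
      refine walk_all N ρ L hL _ v d rfl hv.1 (Walk.mono _ k _ _ ?_)
      convert hw using 1
      omega)
  refine ⟨θ, h1, fun z ν d => h2 (z, ν) d, fun z c w hc hw => h3 _ ?_⟩
  have := Psi_mk N (nd c) w.toWord
  rw [FreeGroup.mk_toWord] at this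
  refine ⟨this.1.mpr hc, ?_⟩
  have h4 := this.2
  simp only [nd, List.length_nil, zero_add] at h4
  exact h4.trans hw

end Crest.Agent.LF
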