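import Crest.Agent.LF.Flow

set_option autoImplicit false

namespace Crest.Agent.LF


/-- a signed letter as an element of the free group -/
def lt {S : Type} (l : S × Bool) : FreeGroup S := FreeGroup.mk [l]

lemma lt_sinv {S : Type} (l : S × Bool) : lt (sinv l) = (lt l)⁻¹ := by
  simp [lt, sinv, FreeGroup.inv_mk, FreeGroup.invRev]

lemma norm_lt_le {S : Type} [DecidableEq S] (l : S × Bool) : (lt l).norm ≤ 1 := by
  simpa [lt] using (FreeGroup.norm_mk_le (L₁ := [l]))

lemma mk_cons {S : Type} (l : S × Bool) (L : List (S × Bool)) :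
    FreeGroup.mk (l :: L) = lt l * FreeGroup.mk L := by
  simp [lt, FreeGroup.mul_mk]

lemma lt_true {S : Type} (s : S) : lt (s, true) = FreeGroup.of s := rfl

lemma lt_false {S : Type} (s : S) : lt (s, false) = (FreeGroup.of s)⁻¹ := by
  rw [← lt_true, ← lt_sinv]; rfl

lemma finite_ball (S : Type) [Fintype S] [DecidableEq S] (m : ℕ) :
    {w : FreeGroup S | w.norm ≤ m}.Finite := by
  have h := List.finite_length_le (S × Bool) m
  exact (h.preimage (FreeGroup.toWord_injective.injOn)).subset fun w hw => hw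

lemma exists_hom_ball (S : Type) [Fintype S] [DecidableEq S] (m : ℕ) :
    ∃ (B : Type) (_ : Finite B) (π : FreeGroup S →* Equiv.Perm B),
      ∀ w : FreeGroup S, w.norm ≤ m → π w = 1 → w = 1 := by
  classical
  let B := {w : FreeGroup S // w.norm ≤ m}
  have : Finite B := (finite_ball S m).to_subtype
  have hp : ∀ s : S, ∃ σ : Equiv.Perm B, ∀ (w : B) (h : (FreeGroup.of s * w.1).norm ≤ m),
      σ w = ⟨FreeGroup.of s * w.1, h⟩ := by
    intro s
    obtain ⟨σ, hσ⟩ := Equiv.Perm.exists_extending_pair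
      (α := {w : B // (FreeGroup.of s * w.1).norm ≤ m}) (β := B) (fun w => w.1)
      (fun w => ⟨FreeGroup.of s * w.1.1, w.2⟩) Subtype.val_injective (by
        intro a b hab
        have : FreeGroup.of s * a.1.1 = FreeGroup.of s * b.1.1 := congrArg Subtype.val hab
        exact Subtype.ext (Subtype.ext (mul_left_cancel this)))
    exact ⟨σ, fun w h => hσ ⟨w, h⟩⟩
  choose σ hσ using hp
  let π : FreeGroup S →* Equiv.Perm B := FreeGroup.lift σ
  let o : B := ⟨1, by simp⟩
  have key : ∀ (L : List (S × Bool)) (hL : L.length ≤ m),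
      (π (FreeGroup.mk L) o).1 = FreeGroup.mk L := by
    intro L
    induction L with
    | nil => intro _; rw [← FreeGroup.one_eq_mk]; simp [o]
    | cons l L ih =>
      intro hL
      have hL' : L.length ≤ m := by simp at hL; omega
      have h1 : (FreeGroup.mk (l :: L)).norm ≤ m := FreeGroup.norm_mk_le.trans hL
      rw [mk_cons] at h1 ⊢
      rw [map_mul, Equiv.Perm.mul_apply]
      have ih' := ih hL'
      generalize π (FreeGroup.mk L) o = u at ih'
      rw [← ih'] at h1 ⊢
      obtain ⟨s, b⟩ := l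
      cases b
      · rw [lt_false] at h1 ⊢
        have h2 : (FreeGroup.of s * ((FreeGroup.of s)⁻¹ * u.1)).norm ≤ m := by
          rw [mul_inv_cancel_left]; exact u.2
        have h3 := hσ s ⟨_, h1⟩ h2
        have h4 : σ s ⟨_, h1⟩ = u := by
          rw [h3]; exact Subtype.ext (by simp)
        rw [map_inv]
        simp only [π, FreeGroup.lift_apply_of]
        have h5 : (σ s)⁻¹ u = ⟨_, h1⟩ := by
          rw [Equiv.Perm.inv_eq_iff_eq]; exact h4.symm
        rw [h5]
      · rw [lt_true] at h1 ⊢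
        simp only [π, FreeGroup.lift_apply_of]
        rw [hσ s u h1]
  refine ⟨B, inferInstance, π, fun w hw h1 => ?_⟩
  have := key w.toWord hw
  rw [FreeGroup.mk_toWord, h1] at this
  simpa [o] using this.symm

/-- a finite quotient of the free group with a section that is multiplicative near the identity -/
theorem exists_quot (S : Type) [Fintype S] [DecidableEq S] (m : ℕ) :
    ∃ (Γ : Type) (_ : Group Γ) (_ : Fintype Γ) (π : FreeGroup S →* Γ) (ω : Γ → FreeGroup S),
      ω 1 = 1 ∧
      (∀ γ g, g.norm ≤ 1 → (ω (π g * γ)).norm ≤ (ω γ).norm + 1) ∧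
      (∀ γ g, g.norm ≤ 1 → (ω (γ * π g)).norm ≤ (ω γ).norm + 1) ∧
      (∀ γ g, g.norm ≤ 1 → (ω γ).norm ≤ m → ω (π g * γ) = g * ω γ) ∧
      (∀ γ g, g.norm ≤ 1 → (ω γ).norm ≤ m → ω (γ * π g) = ω γ * g) := by
  classical
  obtain ⟨B, hB, π₀, hπ⟩ := exists_hom_ball S (2 * m + 2)
  let Γ := π₀.range
  let π : FreeGroup S →* Γ := π₀.rangeRestrict
  have hs : Function.Surjective π := π₀.rangeRestrict_surjective
  have hex : ∀ γ : Γ, ∃ w, π w = γ ∧ ∀ w', π w' = γ → w.norm ≤ w'.norm := by
    intro γ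
    have hne : ∃ n, ∃ w, π w = γ ∧ w.norm = n := by
      obtain ⟨w, hw⟩ := hs γ
      exact ⟨_, w, hw, rfl⟩
    obtain ⟨w, hw, hn⟩ := Nat.find_spec hne
    exact ⟨w, hw, fun w' hw' => hn ▸ Nat.find_min' hne ⟨w', hw', rfl⟩⟩
  choose ω hω hmin using hex
  have hinj : ∀ w w' : FreeGroup S, w.norm ≤ m + 1 → w'.norm ≤ m + 1 → π w = π w' → w = w' := by
    intro w w' h1 h2 h
    have h3 : (w⁻¹ * w').norm ≤ 2 * m + 2 := by
      have := FreeGroup.norm_mul_le w⁻¹ w'
      rw [FreeGroup.norm_inv_eq] at this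
      omega
    have h4 : π₀ (w⁻¹ * w') = 1 := by
      have : π (w⁻¹ * w') = 1 := by rw [map_mul, map_inv, h, inv_mul_cancel]
      exact congrArg Subtype.val this
    exact inv_mul_eq_one.mp (hπ _ h3 h4)
  have hl : ∀ γ g, g.norm ≤ 1 → (ω (π g * γ)).norm ≤ (ω γ).norm + 1 := by
    intro γ g hg
    have := hmin (π g * γ) (g * ω γ) (by rw [map_mul, hω])
    have := FreeGroup.norm_mul_le g (ω γ)
    omega
  have hr : ∀ γ g, g.norm ≤ 1 → (ω (γ * π g)).norm ≤ (ω γ).norm + 1 := by
    intro γ g hg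
    have := hmin (γ * π g) (ω γ * g) (by rw [map_mul, hω])
    have := FreeGroup.norm_mul_le (ω γ) g
    omega
  refine ⟨Γ, inferInstance, Fintype.ofFinite Γ, π, ω, ?_, hl, hr, ?_, ?_⟩
  · have := hmin 1 1 (map_one π)
    simpa using this
  · intro γ g hg hγ
    apply hinj
    · have := hl γ g hg; omega
    · have := FreeGroup.norm_mul_le g (ω γ); omega
    · rw [hω, map_mul, hω]
  · intro γ g hg hγ
    apply hinj
    · have := hr γ g hg; omega
    · have := FreeGroup.norm_mul_le (ω γ) g; omega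
    · rw [hω, map_mul, hω]

end Crest.Agent.LF
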