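import Crest.Agent.LF.Cert
import Crest.Agent.LF.Node

set_option autoImplicit false

namespace Crest.Agent.LF

open Crest.AnalysisR Crest.AnalysisR.PointedMetric

structure QD (m : ℕ) where
  Γ : Type
  [grp : Group Γ]
  [fin : Fintype Γ]
  π : FreeGroup Let →* Γ
  ω : Γ → FreeGroup Let
  ω_one : ω 1 = 1
  nl : ∀ γ g, g.norm ≤ 1 → (ω (π g * γ)).norm ≤ (ω γ).norm + 1
  nr : ∀ γ g, g.norm ≤ 1 → (ω (γ * π g)).norm ≤ (ω γ).norm + 1
  ml : ∀ γ g, g.norm ≤ 1 → (ω γ).norm ≤ m → ω (π g * γ) = g * ω γ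
  mr : ∀ γ g, g.norm ≤ 1 → (ω γ).norm ≤ m → ω (γ * π g) = ω γ * g

attribute [local instance] QD.grp QD.fin

lemma nonempty_QD (m : ℕ) : Nonempty (QD m) := by
  obtain ⟨Γ, _, _, π, ω, h1, h2, h3, h4, h5⟩ := exists_quot Let m
  exact ⟨⟨Γ, π, ω, h1, h2, h3, h4, h5⟩⟩

namespace QD

variable {ρ : ℕ} (Q : QD ρ)

noncomputable def chi (γ : Q.Γ) : ℝ := max 0 (1 - ((Q.ω γ).norm : ℝ) / ρ)

lemma chi_nonneg (γ : Q.Γ) : 0 ≤ Q.chi γ := le_max_left _ _

lemma chi_le_one (γ : Q.Γ) : Q.chi γ ≤ 1 :=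
  max_le zero_le_one (by have : (0 : ℝ) ≤ ((Q.ω γ).norm : ℝ) / ρ := by positivity
                         linarith)

lemma chi_one : Q.chi 1 = 1 := by simp [chi, Q.ω_one]

lemma norm_le_of_chi (hρ : 0 < ρ) {γ : Q.Γ} (h : Q.chi γ ≠ 0) : (Q.ω γ).norm ≤ ρ := by
  by_contra hc
  push Not at hc
  apply h
  apply max_eq_left
  have h1 : (ρ : ℝ) ≤ (Q.ω γ).norm := by exact_mod_cast hc.le
  have h2 : (0 : ℝ) < ρ := by exact_mod_cast hρ
  have : 1 ≤ ((Q.ω γ).norm : ℝ) / ρ := by rw [le_div_iff₀ h2]; linarith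
  linarith

lemma chi_sub_le (hρ : 0 < ρ) {γ γ' : Q.Γ} (h1 : (Q.ω γ).norm ≤ (Q.ω γ').norm + 1)
    (h2 : (Q.ω γ').norm ≤ (Q.ω γ).norm + 1) : |Q.chi γ - Q.chi γ'| ≤ 1 / ρ := by
  unfold chi
  refine (abs_max_sub_max_le_max _ _ _ _).trans ?_
  have h0 : (0 : ℝ) < ρ := by exact_mod_cast hρ
  have a1 : ((Q.ω γ).norm : ℝ) ≤ (Q.ω γ').norm + 1 := by exact_mod_cast h1
  have a2 : ((Q.ω γ').norm : ℝ) ≤ (Q.ω γ).norm + 1 := by exact_mod_cast h2
  apply max_le
  · simp
  · rw [show (1 - ((Q.ω γ).norm : ℝ) / ρ) - (1 - ((Q.ω γ').norm : ℝ) / ρ) =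
      (((Q.ω γ').norm : ℝ) - (Q.ω γ).norm) / ρ by ring, abs_div, abs_of_pos h0]
    gcongr
    rw [abs_le]; constructor <;> linarith

lemma chi_left (hρ : 0 < ρ) (γ : Q.Γ) (g : FreeGroup Let) (hg : g.norm ≤ 1) :
    |Q.chi (Q.π g * γ) - Q.chi γ| ≤ 1 / ρ := by
  apply Q.chi_sub_le hρ (Q.nl γ g hg)
  have := Q.nl (Q.π g * γ) g⁻¹ (by simpa using hg)
  simpa using this

lemma chi_right (hρ : 0 < ρ) (γ : Q.Γ) (g : FreeGroup Let) (hg : g.norm ≤ 1) :
    |Q.chi (γ * Q.π g) - Q.chi γ| ≤ 1 / ρ := by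
  apply Q.chi_sub_le hρ (Q.nr γ g hg)
  have := Q.nr (γ * Q.π g) g⁻¹ (by simpa using hg)
  simpa using this

/-- the symmetric cut-off -/
noncomputable def cut (g : FreeGroup Let) (γ : Q.Γ) : ℝ := min (Q.chi γ) (Q.chi (Q.π g * γ))

lemma cut_nonneg (g : FreeGroup Let) (γ : Q.Γ) : 0 ≤ Q.cut g γ :=
  le_min (Q.chi_nonneg _) (Q.chi_nonneg _)

lemma cut_le (g : FreeGroup Let) (γ : Q.Γ) : Q.cut g γ ≤ Q.chi γ := min_le_left _ _

lemma chi_ne_of_cut {g : FreeGroup Let} {γ : Q.Γ} (h : Q.cut g γ ≠ 0) : Q.chi γ ≠ 0 := by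
  intro h1
  apply h
  have := Q.cut_le g γ
  have := Q.cut_nonneg g γ
  linarith

lemma cut_inv (g : FreeGroup Let) (γ : Q.Γ) : Q.cut g⁻¹ (Q.π g * γ) = Q.cut g γ := by
  simp [cut, min_comm]

lemma cut_right (hρ : 0 < ρ) (g : FreeGroup Let) (γ : Q.Γ) (t : FreeGroup Let)
    (ht : t.norm ≤ 1) : |Q.cut g γ - Q.cut g (γ * Q.π t)| ≤ 1 / ρ := by
  unfold cut
  refine (abs_min_sub_min_le_max _ _ _ _).trans (max_le ?_ ?_)
  · rw [abs_sub_comm]; exact Q.chi_right hρ γ t ht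
  · rw [abs_sub_comm, ← mul_assoc]; exact Q.chi_right hρ _ t ht

lemma cut_sub (hρ : 0 < ρ) (g : FreeGroup Let) (hg : g.norm ≤ 1) (γ : Q.Γ) :
    |Q.cut g γ - Q.chi γ| ≤ 1 / ρ := by
  have := Q.chi_left hρ γ g hg
  unfold cut
  rcases min_choice (Q.chi γ) (Q.chi (Q.π g * γ)) with h | h <;> rw [h]
  · simp
  · exact this

end QD

def rr (k : ℕ) : ℕ := 16 * (k + 1)
def rho (k : ℕ) : ℕ := 100 * (k + 1) * rr k

lemma rr_pos (k : ℕ) : 16 ≤ rr k := by unfold rr; omega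
lemma rr_le (k : ℕ) : rr k ≤ rho k := by unfold rho; nlinarith [rr_pos k]
lemma le_rho (k : ℕ) : k ≤ rho k := by unfold rho; nlinarith [rr_pos k]
lemma rho_mono {j k : ℕ} (h : j ≤ k) : rho j ≤ rho k := by unfold rho rr; gcongr

noncomputable def qd (k : ℕ) : QD (rho k) := Classical.choice (nonempty_QD _)

variable (Z : ℕ → CG)

abbrev Pt : Type := Option (Σ k : ℕ, (qd k).Γ × Core Z)

inductive Ed : Pt Z → Pt Z → ℝ → Prop
  | hub (k : ℕ) (x : (qd k).Γ × Core Z) : Ed (some ⟨k, x⟩) none (rho k)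
  | anc (k : ℕ) (y : (qd k).Γ) (c : Core Z) : Ed (some ⟨k, (y, c)⟩) (some ⟨k, (y, none)⟩) (rr k)
  | mov (k : ℕ) (y : (qd k).Γ) (n : ℕ) (e : (Z n).V) (d : Dart) :
      Ed (some ⟨k, (y, some ⟨n, e⟩)⟩)
        (some ⟨k, ((qd k).π (lt (lab (Z n) e d)) * y, some ⟨n, (Z n).mv e d⟩)⟩) 1

def wg : WG (Pt Z) where
  E := Ed Z
  one_le x y w h := by
    cases h with
    | hub k x => have := (rr_pos k).trans (rr_le k); exact_mod_cast (by omega : 1 ≤ rho k)
    | anc k y c => have := rr_pos k; exact_mod_cast (by omega : 1 ≤ rr k)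
    | mov => exact le_rfl
  o := none
  conn x := by
    rcases x with _ | ⟨k, x⟩
    · exact Or.inl rfl
    · exact Or.inr ⟨_, Ed.hub k x⟩

noncomputable def sp : PointedMetric := (wg Z).toP

lemma lp_of_edge {K : ℝ} (hK : 0 < K) {f : Pt Z → ℝ}
    (hf : ∀ x y w, Ed Z x y w → |f x - f y| ≤ K * w) (h0 : f none = 0) : Lp (sp Z) K f :=
  ⟨(wg Z).lip hK hf, h0⟩

lemma edge_of_lp {f : Pt Z → ℝ} (hf : Lp (sp Z) 1 f) {x y : Pt Z} {w : ℝ} (h : Ed Z x y w) :
    |f x - f y| ≤ w := by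
  have h1 : |f x - f y| ≤ 1 * (wg Z).d x y := hf.1 x y
  have h2 := (wg Z).d_le (x := x) (y := y) h
  linarith

def lev : Pt Z → ℕ
  | none => 0
  | some ⟨k, _⟩ => k

theorem sp_hasAP : HasAP (sp Z).FreeSpace := by
  classical
  refine hasAP_of_levels (sp Z) (lev Z) (fun k => 2 * rho k + 1) (fun k => by positivity) ?_ ?_
  · intro k f hf
    have h0 : f none = 0 := hf.2
    refine lp_of_edge Z one_pos (fun x y w h => ?_) (by simp [Set.indicator, h0])
    have h1 := edge_of_lp Z hf h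
    have h2 := (wg Z).one_le x y w h
    rw [one_mul]
    cases h with
    | hub j x =>
      by_cases hj : j ≤ k
      · simpa [Set.indicator, lev, hj] using h1
      · simp [Set.indicator, lev, hj, h0]
    | anc j y c =>
      by_cases hj : j ≤ k
      · simpa [Set.indicator, lev, hj] using h1
      · simp [Set.indicator, lev, hj]
    | mov j y n e d =>
      by_cases hj : j ≤ k
      · simpa [Set.indicator, lev, hj] using h1
      · simp [Set.indicator, lev, hj]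
  · intro k E hE f hf
    have h0 : f none = 0 := hf.2
    have hb : ∀ x, |E.indicator f x| ≤ rho k := by
      intro x
      by_cases hx : x ∈ E
      · rw [Set.indicator_of_mem hx]
        rcases x with _ | ⟨j, x⟩
        · rw [h0]; simp
        · have h1 := edge_of_lp Z hf (Ed.hub j x)
          rw [h0, sub_zero] at h1
          have h2 : j ≤ k := hE hx
          exact h1.trans (by exact_mod_cast rho_mono h2)
      · rw [Set.indicator_of_notMem hx]; simp
    refine lp_of_edge Z (by positivity) (fun x y w h => ?_) (by simp [Set.indicator, h0])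
    have h2 := (wg Z).one_le x y w h
    have h3 := abs_sub (E.indicator f x) (E.indicator f y)
    have h4 : (0 : ℝ) ≤ rho k := by positivity
    nlinarith [hb x, hb y]

theorem sp_basic : (sp Z).IsCountableSeparatedUnboundedNonproper := by
  classical
  refine ⟨?_, fun x y h => (wg Z).one_le_d h, ?_, ?_⟩
  · have : ∀ n, Countable (Z n).V := fun n => by have := (Z n).fin; infer_instance
    change Countable (Pt Z)
    infer_instance
  · let _ := (sp Z).metric
    intro hb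
    obtain ⟨C, hC⟩ := Metric.isBounded_iff.mp hb
    obtain ⟨k, hk⟩ := exists_nat_gt C
    let f : Pt Z → ℝ := fun x => match x with
      | none => 0
      | some ⟨j, _⟩ => rho j
    have hf := (wg Z).lip one_pos (f := f) (fun x y w h => by
      have h2 := (wg Z).one_le x y w h
      cases h <;> simp [f]) (some ⟨k, (1, none)⟩) none
    have h1 : (wg Z).d (some ⟨k, (1, none)⟩) none ≤ C := hC (Set.mem_univ _) (Set.mem_univ _)
    simp only [f, sub_zero, Nat.abs_cast, one_mul] at hf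
    have h3 : (k : ℝ) ≤ rho k := by exact_mod_cast le_rho k
    linarith
  · let _ := (sp Z).metric
    intro hp
    let u : ℕ → Pt Z := fun n => some ⟨0, (1, some ⟨n, Classical.choice (Z n).ne⟩)⟩
    have hu : ∀ n, u n ∈ Metric.closedBall (α := (sp Z).M) none (rho 0) := fun n =>
      (wg Z).d_le (Ed.hub 0 _)
    obtain ⟨a, -, φ, hφ, hlim⟩ := (isCompact_closedBall (α := (sp Z).M) none (rho 0)).tendsto_subseq hu
    obtain ⟨N, hN⟩ := Metric.cauchySeq_iff'.mp hlim.cauchySeq 1 one_pos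
    have h1 := hN (N + 1) (by omega)
    have h2 : u (φ (N + 1)) ≠ u (φ N) := by
      intro h
      have h3 := congrArg (fun x : Pt Z => match x with
        | some ⟨_, (_, some ⟨n, _⟩)⟩ => n
        | _ => 0) h
      have := hφ (show N < N + 1 by omega)
      simp only [u] at h3
      omega
    have h4 := (wg Z).one_le_d h2
    exact absurd h1 (not_lt.mpr h4)

def cidx : Pt Z → ℕ
  | some ⟨_, (_, some ⟨n, _⟩)⟩ => n + 1
  | _ => 0

noncomputable def onk (k : ℕ) (F : (qd k).Γ × Core Z → ℝ) : Pt Z → ℝ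
  | none => 0
  | some ⟨j, x⟩ => (Pi.single k F : ∀ j, (qd j).Γ × Core Z → ℝ) j x

lemma onk_self (k : ℕ) (F : (qd k).Γ × Core Z → ℝ) (x : (qd k).Γ × Core Z) :
    onk Z k F (some ⟨k, x⟩) = F x := by simp [onk]

lemma onk_ne (k : ℕ) (F : (qd k).Γ × Core Z → ℝ) {j : ℕ} (h : j ≠ k) (x : (qd j).Γ × Core Z) :
    onk Z k F (some ⟨j, x⟩) = 0 := by simp [onk, h]

lemma lp_onk (k : ℕ) (F : (qd k).Γ × Core Z → ℝ) {K : ℝ} (hK : 0 < K)
    (h1 : ∀ x, |F x| ≤ K * rho k) (h2 : ∀ y c, |F (y, c) - F (y, none)| ≤ K * rr k)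
    (h3 : ∀ y n e d, |F (y, some ⟨n, e⟩) -
      F ((qd k).π (lt (lab (Z n) e d)) * y, some ⟨n, (Z n).mv e d⟩)| ≤ K) :
    Lp (sp Z) K (onk Z k F) := by
  refine lp_of_edge Z hK (fun x y w h => ?_) rfl
  cases h with
  | hub j x =>
    by_cases hj : j = k
    · subst hj; rw [onk_self]; simpa [onk] using h1 x
    · rw [onk_ne Z k F hj]; simp [onk]; positivity
  | anc j y c =>
    by_cases hj : j = k
    · subst hj; rw [onk_self, onk_self]; exact h2 y c
    · rw [onk_ne Z k F hj, onk_ne Z k F hj]; simp; positivity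
  | mov j y n e d =>
    by_cases hj : j = k
    · subst hj; rw [onk_self, onk_self, mul_one]; exact h3 y n e d
    · rw [onk_ne Z k F hj, onk_ne Z k F hj]; simp; positivity

theorem sp_cert (hZ : ∀ i n, i < n → Sep (Z i) (Z n)) (k N : ℕ) :
    Cert (sp Z) (cidx Z) (Set.range fun y : (qd k).Γ => (some ⟨k, (y, none)⟩ : Pt Z))
      (rr k) (rho k) (rho k) N := by
  classical
  obtain ⟨θ, hθ1, hθ2, hθ3⟩ := exists_theta (Z := Z) N (rho k) fun i hi => hZ i N hi
  let Q := qd k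
  have hr : (16 : ℝ) ≤ rr k := by exact_mod_cast rr_pos k
  have hrρ : (rr k : ℝ) ≤ rho k := by exact_mod_cast rr_le k
  have hρ : 0 < rho k := by have := (rr_pos k).trans (rr_le k); omega
  have hρ' : (0 : ℝ) < rho k := by exact_mod_cast hρ
  let _ := (Z N).fin
  have := (Z N).ne
  let g : (Q.Γ × (Z N).V) × Dart → Q.Γ × Core Z → ℝ := fun i x =>
    θ (i.1.2, Psi Z (Q.ω (i.1.1 * x.1⁻¹)) (nd x.2)) i.2 *
      Q.cut (lt (lab (Z N) i.1.2 i.2)) (i.1.1 * x.1⁻¹)
  let H : Q.Γ × (Z N).V → Q.Γ × Core Z → ℝ := fun p x =>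
    if low N x.2 then ∑ d, g (p, d) x else Q.chi (p.1 * x.1⁻¹)
  have hg1 : ∀ i x, |g i x| ≤ 1 := by
    intro i x
    simp only [g]
    rw [abs_mul, abs_of_nonneg (Q.cut_nonneg _ _)]
    exact mul_le_one₀ (hθ1 _ _) (Q.cut_nonneg _ _) ((Q.cut_le _ _).trans (Q.chi_le_one _))
  have hH : ∀ p x, |H p x - Q.chi (p.1 * x.1⁻¹)| ≤ 4 / rho k := by
    intro p x
    simp only [H]
    split_ifs with hx
    · by_cases h0 : Q.chi (p.1 * x.1⁻¹) = 0
      · have : ∀ d, g (p, d) x = 0 := by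
          intro d
          simp only [g]
          by_contra hc
          exact Q.chi_ne_of_cut (right_ne_zero_of_mul hc) h0
        simp only [this, h0]; simp; positivity
      · have h1 := hθ3 p.2 x.2 _ hx (Q.norm_le_of_chi hρ h0)
        have h2 : ∑ d, g (p, d) x - Q.chi (p.1 * x.1⁻¹) =
            ∑ d, θ (p.2, Psi Z (Q.ω (p.1 * x.1⁻¹)) (nd x.2)) d *
              (Q.cut (lt (lab (Z N) p.2 d)) (p.1 * x.1⁻¹) - Q.chi (p.1 * x.1⁻¹)) := by
          simp only [mul_sub, Finset.sum_sub_distrib, ← Finset.sum_mul, h1, one_mul, g]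
        rw [h2]
        refine (Finset.abs_sum_le_sum_abs _ _).trans ?_
        calc _ ≤ ∑ _d : Dart, (1 / rho k : ℝ) := Finset.sum_le_sum fun d _ => by
              rw [abs_mul]
              calc _ ≤ 1 * (1 / rho k : ℝ) := by
                    gcongr
                    · exact hθ1 _ _
                    · exact Q.cut_sub hρ _ (norm_lt_le _) _
                _ = _ := one_mul _
          _ = 4 / rho k := by simp; ring
    · simp; positivity
  refine ⟨Q.Γ × (Z N).V, inferInstance, inferInstance,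
    fun p => some ⟨k, (p.1, some ⟨N, p.2⟩)⟩, fun p => some ⟨k, (p.1, none)⟩,
    fun i => ((Q.π (lt (lab (Z N) i.1.2 i.2)) * i.1.1, (Z N).mv i.1.2 i.2), sinv i.2),
    fun i => onk Z k (g i), fun p => onk Z k (H p), ?_, fun p => ⟨p.1, rfl⟩,
    fun p => (wg Z).d_le (Ed.anc k _ _), fun p => (wg Z).d_le (Ed.hub k _),
    fun i => (wg Z).d_le (Ed.mov k _ _ _ _), ?_, ?_, ?_, ?_, ?_⟩
  · rintro ⟨⟨y, z⟩, d⟩
    simp [lab_sinv, lt_sinv, (Z N).mv_inv]
  · intro i
    have h2 : (1 : ℝ) ≤ 2 / rr k * rho k := by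
      rw [div_mul_eq_mul_div, le_div_iff₀ (by positivity)]; linarith
    refine lp_onk Z k _ (by positivity) (fun x => (hg1 i x).trans h2) (fun y c => ?_) ?_
    · rw [div_mul_cancel₀ _ (by positivity)]
      have := abs_sub (g i (y, c)) (g i (y, none))
      linarith [hg1 i (y, c), hg1 i (y, none)]
    · intro y n e d
      have h3 : (1 : ℝ) / rho k ≤ 2 / rr k := by
        rw [div_le_div_iff₀ hρ' (by positivity)]; linarith
      refine le_trans ?_ h3
      simp only [g]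
      set t := lt (lab (Z n) e d) with ht
      have htn : t⁻¹.norm ≤ 1 := by simpa using norm_lt_le _
      have e1 : i.1.1 * (Q.π t * y)⁻¹ = i.1.1 * y⁻¹ * Q.π t⁻¹ := by simp [mul_assoc]
      rw [e1]
      set γ := i.1.1 * y⁻¹
      have hc := Q.cut_right hρ (lt (lab (Z N) i.1.2 i.2)) γ t⁻¹ htn
      have key : Q.ω (γ * Q.π t⁻¹) = Q.ω γ * t⁻¹ →
          |θ (i.1.2, Psi Z (Q.ω γ) (nd (some ⟨n, e⟩))) i.2 * Q.cut (lt (lab (Z N) i.1.2 i.2)) γ -
            θ (i.1.2, Psi Z (Q.ω (γ * Q.π t⁻¹)) (nd (some ⟨n, (Z n).mv e d⟩))) i.2 *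
              Q.cut (lt (lab (Z N) i.1.2 i.2)) (γ * Q.π t⁻¹)| ≤ 1 / rho k := by
        intro hω
        rw [hω, ← Psi_nd, ← ht, ← Equiv.Perm.mul_apply, ← map_mul, inv_mul_cancel_right,
          ← mul_sub, abs_mul]
        calc _ ≤ 1 * (1 / rho k : ℝ) := by
              gcongr
              exact hθ1 _ _
          _ = _ := one_mul _
      by_cases h1 : Q.cut (lt (lab (Z N) i.1.2 i.2)) γ = 0
      · by_cases h4 : Q.cut (lt (lab (Z N) i.1.2 i.2)) (γ * Q.π t⁻¹) = 0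
        · rw [h1, h4]; simp
        · apply key
          have h5 := Q.mr _ t (norm_lt_le _) (Q.norm_le_of_chi hρ (Q.chi_ne_of_cut h4))
          rw [mul_assoc, ← map_mul, inv_mul_cancel, map_one, mul_one] at h5
          rw [h5, mul_inv_cancel_right]
      · exact key (Q.mr _ _ htn (Q.norm_le_of_chi hρ (Q.chi_ne_of_cut h1)))
  · rintro ⟨⟨y, z⟩, d⟩ x
    beta_reduce
    rcases x with _ | ⟨j, x⟩
    · simp [onk]
    by_cases hj : j = k
    · subst hj
      rw [onk_self, onk_self]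
      simp only [g, lab_sinv, lt_sinv, mul_assoc, Q.cut_inv]
      by_cases h1 : Q.cut (lt (lab (Z N) z d)) (y * x.1⁻¹) = 0
      · rw [h1]; simp
      · rw [Q.ml _ _ (norm_lt_le _) (Q.norm_le_of_chi hρ (Q.chi_ne_of_cut h1)), map_mul,
          Equiv.Perm.mul_apply, hθ2]
        ring
    · rw [onk_ne Z k _ hj, onk_ne Z k _ hj]; simp
  · intro p
    have h4 : (4 : ℝ) / rho k ≤ 1 := by rw [div_le_one hρ']; linarith
    refine lp_onk Z k _ (by positivity) (fun x => ?_) (fun y c => ?_) ?_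
    · rw [div_mul_cancel₀ _ hρ'.ne']
      have h1 := hH p x
      have h2 := Q.chi_nonneg (p.1 * x.1⁻¹)
      have h3 := Q.chi_le_one (p.1 * x.1⁻¹)
      rw [abs_le] at h1 ⊢
      constructor <;> linarith [h1.1, h1.2]
    · have h1 := hH p (y, c)
      have h2 := hH p (y, none)
      have h3 : (9 : ℝ) / rho k * 1 ≤ 9 / rho k * rr k := by gcongr; linarith
      have h5 : (9 : ℝ) / rho k = 4 / rho k + 4 / rho k + 1 / rho k := by ring
      have h6 : (0 : ℝ) < 1 / rho k := by positivity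
      simp only at h1 h2
      rw [abs_le] at h1 h2 ⊢
      constructor <;> linarith [h1.1, h1.2, h2.1, h2.2]
    · intro y n e d
      have h1 := hH p (y, some ⟨n, e⟩)
      have h2 := hH p (Q.π (lt (lab (Z n) e d)) * y, some ⟨n, (Z n).mv e d⟩)
      have h3 := Q.chi_right hρ (p.1 * y⁻¹) (lt (lab (Z n) e d))⁻¹ (by simpa using norm_lt_le _)
      have e1 : p.1 * (Q.π (lt (lab (Z n) e d)) * y)⁻¹ =
          p.1 * y⁻¹ * Q.π (lt (lab (Z n) e d))⁻¹ := by simp [mul_assoc]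
      simp only at h1 h2
      rw [e1] at h2
      have h5 : (9 : ℝ) / rho k = 4 / rho k + 4 / rho k + 1 / rho k := by ring
      rw [abs_le] at h1 h2 h3 ⊢
      constructor <;> linarith [h1.1, h1.2, h2.1, h2.2, h3.1, h3.2]
  · intro p x hx
    rcases x with _ | ⟨j, x⟩
    · simp [onk]
    by_cases hj : j = k
    · subst hj
      simp only [onk_self, H]
      rw [if_pos]
      obtain ⟨y, c⟩ := x
      rcases c with _ | ⟨n, e⟩
      · trivial
      · exact hx
    · simp only [onk_ne Z k _ hj]; simp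
  · intro p
    beta_reduce
    rw [onk_self]
    have h1 := hH p (p.1, none)
    simp only [mul_inv_cancel, Q.chi_one] at h1
    rw [abs_le] at h1
    linarith [h1.1]

theorem main : ∃ P : PointedMetric, P.IsCountableSeparatedUnboundedNonproper ∧
    HasAP P.FreeSpace ∧ ¬ HasBAP P.FreeSpace := by
  obtain ⟨Z, hZ⟩ := exists_family
  refine ⟨sp Z, sp_basic Z, sp_hasAP Z, not_hasBAP (sp Z) (cidx Z) fun k =>
    ⟨_, rr k, rho k, rho k, Set.finite_range _, ?_, ?_, sp_cert Z hZ k⟩⟩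
  · simp [rr]
  · simp [rho]

end Crest.Agent.LF
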